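import Vale.Agent.P220Z.Per.Defs

/-!
# P220, construction of the Lagrangian: definitions and statements

General statements on images, quotients and regular zero sets of submanifolds, and on the
Lagrangian of a generating family. The base of the construction is `Qt = B × S(U)`.
-/

open Set
open scoped ContDiff RealInnerProductSpace

namespace Vale.Agent.P220Z.Cn

open Vale.Agent.P220.R2.H57 Vale.Agent.P220Z.Per

section Gen

variable {E : Type} [NormedAddCommGroup E] [InnerProductSpace ℝ E]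
  {E' : Type} [NormedAddCommGroup E'] [InnerProductSpace ℝ E']
  {V : Type} [NormedAddCommGroup V] [InnerProductSpace ℝ V]

/-- the fibre critical points in the window -/
def Sig (Qt : Set E) (a : ℝ) (F : E × V → ℝ) : Set (E × V) :=
  {y | y.1 ∈ Qt ∧ dV F y.1 y.2 = 0 ∧ |F y| < a}

/-- the set of covectors generated by `F` along `S` -/
def Lag (Qt : Set E) (Q : Set E') (P : E → E') (S : Set (E × V)) (F : E × V → ℝ) :
    Set (E' × E') :=
  {z | ∃ y ∈ S, z.1 = P y.1 ∧ z.2 ∈ Tan Q z.1 ∧ Cov Qt P F y.1 y.2 z.2}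

/-- the part of `IsGen` that does not mention the Lagrangian -/
structure IsPre (Qt : Set E) (a m : ℝ) (F : E × V → ℝ) : Prop where
  gap : ∀ b ∈ Qt, ∀ x, dV F b x = 0 → |F (b, x)| ≤ a - m ∨ a + m ≤ |F (b, x)|
  inj : ∀ b ∈ Qt, ∀ x x', dV F b x = 0 → dV F b x' = 0 → |F (b, x)| < a → |F (b, x')| < a →
    (∀ u ∈ Tan Qt b, fderiv ℝ F (b, x) (u, 0) = fderiv ℝ F (b, x') (u, 0)) → x = x'
  reg : ∀ b ∈ Qt, ∀ x, dV F b x = 0 → |F (b, x)| < a → Reg Qt F b x

end Gen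

section Dom

variable {G : Type} [Group G]
  {Eb : Type} [NormedAddCommGroup Eb] [InnerProductSpace ℝ Eb]
  {U : Type} [NormedAddCommGroup U] [InnerProductSpace ℝ U]

/-- the ambient space of the base `B × S(U)` -/
abbrev Bs (Eb U : Type) : Type := WithLp 2 (Eb × U)

/-- the base `B × S(U)` -/
def QtOf (U : Type) [NormedAddCommGroup U] (B : Set Eb) : Set (Bs Eb U) :=
  {q | q.fst ∈ B ∧ ‖q.snd‖ = 1}

/-- the diagonal action -/
noncomputable def prodRep (β : G →* (Eb ≃ₗᵢ[ℝ] Eb)) (ρ : G →* (U ≃ₗᵢ[ℝ] U)) :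
    G →* (Bs Eb U ≃ₗᵢ[ℝ] Bs Eb U) where
  toFun g := LinearIsometryEquiv.withLpProdCongr 2 (β g) (ρ g)
  map_one' := by
    ext x : 1
    rw [map_one, map_one]
    rfl
  map_mul' g h := by
    ext x : 1
    simp

end Dom

/-- IMG: images of compact submanifolds under immersions whose fibres are orbits. -/
def StImg : Prop :=
  ∀ (Γ : Type) (X : Type) [NormedAddCommGroup X] [NormedSpace ℝ X] [FiniteDimensional ℝ X]
    (Y : Type) [NormedAddCommGroup Y] [NormedSpace ℝ Y] [FiniteDimensional ℝ Y]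
    (γ : Γ → X → X) (n : ℕ) (S : Set X) (ι : X → Y), IsSubmanifold n S → IsCompact S →
    ContDiff ℝ ∞ ι → (∀ g, Continuous (γ g)) → (∀ g, ∀ x ∈ S, γ g x ∈ S) →
    (∀ g, ∀ x ∈ S, ι (γ g x) = ι x) → (∀ x ∈ S, ∀ x' ∈ S, ι x = ι x' → ∃ g, γ g x' = x) →
    (∀ x ∈ S, ∀ u ∈ Tan S x, fderiv ℝ ι x u = 0 → u = 0) →
    IsSubmanifold n (ι '' S) ∧
      (∀ x ∈ S, ∀ v ∈ Tan (ι '' S) (ι x), ∃ u ∈ Tan S x, fderiv ℝ ι x u = v) ∧
      ∀ f : X → ℝ, ContDiff ℝ ∞ f → (∀ g, ∀ x ∈ S, f (γ g x) = f x) →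
        ∃ f' : Y → ℝ, ContDiff ℝ ∞ f' ∧ ∀ x ∈ S, f' (ι x) = f x

/-- QUOT: an invariant immersion that separates the orbits of a free action. -/
def StQuot : Prop :=
  ∀ (G : Type) [Group G] [Fintype G] (E : Type) [NormedAddCommGroup E] [InnerProductSpace ℝ E]
    [FiniteDimensional ℝ E] (α : G →* (E ≃ₗᵢ[ℝ] E)) (S : Set E), IsCompact S →
    (∀ g, ∀ x ∈ S, α g x ∈ S) → (∀ g, ∀ x ∈ S, α g x = x → g = 1) →
    ∃ (E' : Type) (_ : NormedAddCommGroup E') (_ : InnerProductSpace ℝ E')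
      (_ : FiniteDimensional ℝ E') (P : E → E'), ContDiff ℝ ∞ P ∧ (∀ g x, P (α g x) = P x) ∧
      (∀ x ∈ S, ∀ x' ∈ S, P x = P x' → ∃ g, α g x' = x) ∧
      ∀ x ∈ S, ∀ u, fderiv ℝ P x u = 0 → u = 0

/-- REGVAL: regular zero sets in submanifolds. -/
def StReg : Prop :=
  ∀ (X : Type) [NormedAddCommGroup X] [NormedSpace ℝ X] [FiniteDimensional ℝ X]
    (V : Type) [NormedAddCommGroup V] [NormedSpace ℝ V] [FiniteDimensional ℝ V]
    (n : ℕ) (S O : Set X) (Θ : X → V), IsSubmanifold (n + Module.finrank ℝ V) S → IsOpen O →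
    ContDiff ℝ ∞ Θ → (∀ x ∈ S, x ∈ O → Θ x = 0 → ∀ v, ∃ u ∈ Tan S x, fderiv ℝ Θ x u = v) →
    IsSubmanifold n {x | x ∈ S ∧ x ∈ O ∧ Θ x = 0}

/-- PROD: the product of a submanifold with a vector space. -/
def StProd : Prop :=
  ∀ (X : Type) [NormedAddCommGroup X] [NormedSpace ℝ X] [FiniteDimensional ℝ X]
    (Y : Type) [NormedAddCommGroup Y] [NormedSpace ℝ Y] [FiniteDimensional ℝ Y]
    (Z : Type) [NormedAddCommGroup Z] [NormedSpace ℝ Z] [FiniteDimensional ℝ Z]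
    (e : X ≃L[ℝ] Y × Z) (n : ℕ) (S : Set Y), IsSubmanifold n S →
    IsSubmanifold (n + Module.finrank ℝ Z) {x | (e x).1 ∈ S}

/-- SIG: the critical set in the window is a compact submanifold. -/
def StSig : Prop :=
  ∀ (G : Type) [Group G] (E : Type) [NormedAddCommGroup E] [InnerProductSpace ℝ E]
    [FiniteDimensional ℝ E] (V : Type) [NormedAddCommGroup V] [InnerProductSpace ℝ V]
    [FiniteDimensional ℝ V] (α : G →* (E ≃ₗᵢ[ℝ] E)) (ρ : G →* (V ≃ₗᵢ[ℝ] V)) (n : ℕ) (Qt : Set E)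
    (a m : ℝ) (F : E × V → ℝ), IsSubmanifold n Qt → IsCompact Qt → IsAdm α Qt a ρ F →
    IsPre Qt a m F → IsSubmanifold n (Sig Qt a F) ∧ IsCompact (Sig Qt a F)

/-- LAG: a generating family generates a closed exact Lagrangian. -/
def StLag : Prop :=
  ∀ (G : Type) [Group G] (E : Type) [NormedAddCommGroup E] [InnerProductSpace ℝ E]
    [FiniteDimensional ℝ E] (E' : Type) [NormedAddCommGroup E'] [InnerProductSpace ℝ E']
    [FiniteDimensional ℝ E'] (V : Type) [NormedAddCommGroup V] [InnerProductSpace ℝ V]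
    [FiniteDimensional ℝ V] (α : G →* (E ≃ₗᵢ[ℝ] E)) (ρ : G →* (V ≃ₗᵢ[ℝ] V)) (n : ℕ) (Qt : Set E)
    (Q : Set E') (P : E → E') (a m : ℝ) (F : E × V → ℝ), IsCover α Qt Q P →
    (∀ b ∈ Qt, ∀ b' ∈ Qt, P b = P b' → ∃ g, α g b' = b) → IsAdm α Qt a ρ F → IsPre Qt a m F →
    IsSubmanifold n (Sig Qt a F) → IsCompact (Sig Qt a F) → (Sig Qt a F).Nonempty →
    IsClosedExactLagrangian n Q (Lag Qt Q P (Sig Qt a F) F) ∧
      IsGen Qt P (Lag Qt Q P (Sig Qt a F) F) a m F ∧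
      (IsConnected (Sig Qt a F) → IsConnected (Lag Qt Q P (Sig Qt a F) F))

/-- COVER: the quotient of a closed manifold by a free action. -/
def StCover : Prop :=
  ∀ (G : Type) [Group G] [Fintype G] (E : Type) [NormedAddCommGroup E] [InnerProductSpace ℝ E]
    [FiniteDimensional ℝ E] (α : G →* (E ≃ₗᵢ[ℝ] E)) (n : ℕ) (Qt : Set E), IsClosedManifold n Qt →
    (∀ g, ∀ x ∈ Qt, α g x ∈ Qt) → (∀ g, ∀ x ∈ Qt, α g x = x → g = 1) →
    ∃ (E' : Type) (_ : NormedAddCommGroup E') (_ : InnerProductSpace ℝ E')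
      (_ : FiniteDimensional ℝ E') (Q : Set E') (P : E → E'), IsCover α Qt Q P ∧
      IsClosedManifold n Q ∧ ∀ b ∈ Qt, ∀ b' ∈ Qt, P b = P b' → ∃ g, α g b' = b

/-- BASE: `B × S(U)` is a closed manifold. -/
def StBase : Prop :=
  ∀ (Eb : Type) [NormedAddCommGroup Eb] [InnerProductSpace ℝ Eb] [FiniteDimensional ℝ Eb]
    (U : Type) [NormedAddCommGroup U] [InnerProductSpace ℝ U] [FiniteDimensional ℝ U]
    (n k : ℕ) (B : Set Eb), IsClosedManifold n B → Module.finrank ℝ U = k + 2 →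
    IsClosedManifold (n + (k + 1)) (QtOf U B)

end Vale.Agent.P220Z.Cn
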