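import Vale.Agent.P220Z.Cn.FamC
import Vale.Agent.P220Z.Top.Defs

/-!
# P220, construction: the generating families of a family of domains
-/

open Set Filter Topology
open scoped ContDiff RealInnerProductSpace

set_option linter.unusedSectionVars false

namespace Vale.Agent.P220Z.Cn.Fm

open Vale.Agent.P220.R2.H57 Vale.Agent.P220Z.Per Vale.Agent.P220Z.Top

variable {Eb : Type} [NormedAddCommGroup Eb] [InnerProductSpace ℝ Eb] [FiniteDimensional ℝ Eb]
  {U : Type} [NormedAddCommGroup U] [InnerProductSpace ℝ U] [FiniteDimensional ℝ U]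

/-- the family made standard at infinity -/
noncomputable def md (φ : Eb × U → ℝ) (R : ℝ) (y : Eb × U) : ℝ :=
  φ y + Real.smoothTransition (‖y.2‖ ^ 2 - (R + 1) ^ 2) * (‖y.2‖ ^ 2 - φ y)

variable {φ : Eb × U → ℝ} {R : ℝ}

theorem sm_md (hφ : ContDiff ℝ ∞ φ) (R : ℝ) : ContDiff ℝ ∞ (md φ R) := by
  have h : ContDiff ℝ ∞ fun y : Eb × U => ‖y.2‖ ^ 2 := contDiff_snd.norm_sq ℝ
  exact hφ.add ((Real.smoothTransition.contDiff.comp (h.sub contDiff_const)).mul (h.sub hφ))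

theorem md_near (_ : 0 ≤ R) {b : Eb} {x : U} (hx : ‖x‖ ≤ R + 1) : md φ R (b, x) = φ (b, x) := by
  rw [md, Real.smoothTransition.zero_of_nonpos, zero_mul, add_zero]
  have := pow_le_pow_left₀ (norm_nonneg x) hx 2
  simp only
  linarith

theorem md_far (hR : 0 ≤ R) {b : Eb} {x : U} (hx : R + 2 ≤ ‖x‖) : md φ R (b, x) = ‖x‖ ^ 2 := by
  rw [md, Real.smoothTransition.one_of_one_le]
  · ring
  · have := pow_le_pow_left₀ (by linarith) hx 2
    simp only
    nlinarith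

theorem md_pos (hR : 0 ≤ R) {b : Eb} {x : U} (hx : 0 < φ (b, x)) : 0 < md φ R (b, x) := by
  rcases le_total ‖x‖ (R + 1) with h | h
  · rwa [md_near hR h]
  · have h1 := Real.smoothTransition.nonneg (‖x‖ ^ 2 - (R + 1) ^ 2)
    have h2 := Real.smoothTransition.le_one (‖x‖ ^ 2 - (R + 1) ^ 2)
    have h3 : 0 < ‖x‖ ^ 2 := by
      have : 0 < ‖x‖ := by linarith
      positivity
    have h4 : min (φ (b, x)) (‖x‖ ^ 2) ≤ md φ R (b, x) := by
      have a1 := min_le_left (φ (b, x)) (‖x‖ ^ 2)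
      have a2 := min_le_right (φ (b, x)) (‖x‖ ^ 2)
      simp only [md]
      nlinarith
    exact (lt_min hx h3).trans_le h4

theorem dV_md (hR : 0 ≤ R) {b : Eb} {x : U} (hx : ‖x‖ < R + 1) : dV (md φ R) b x = dV φ b x := by
  refine dV_congr ?_
  have a1 : ∀ᶠ y : Eb × U in 𝓝 (b, x), ‖y.2‖ < R + 1 :=
    continuous_snd.norm.continuousAt.eventually_lt continuousAt_const hx
  filter_upwards [a1] with y hy
  exact md_near hR hy.le

variable {G : Type} [Group G] {β : G →* (Eb ≃ₗᵢ[ℝ] Eb)} {ρ : G →* (U ≃ₗᵢ[ℝ] U)} {B : Set Eb}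
  {s : Eb → ℝ}

theorem core_md {m : ℕ} (hB : IsClosedManifold m B) (h : IsDom β B ρ φ s) (hR : 0 ≤ R)
    (hb : ∀ b ∈ B, ∀ x, R ≤ ‖x‖ → 0 < φ (b, x)) : Core B s (md φ R) (R + 2) := by
  have key : ∀ b ∈ B, ∀ x, md φ R (b, x) = 0 → ‖x‖ < R + 1 ∧ φ (b, x) = 0 := by
    intro b hb' x hx
    have h1 : ‖x‖ < R + 1 := by
      by_contra h2
      exact (md_pos hR (hb b hb' x (by linarith [not_lt.1 h2]))).ne' hx
    exact ⟨h1, by rwa [md_near hR h1.le] at hx⟩
  obtain ⟨O, r, hr, -⟩ := exists_ret hB.sub hB.compact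
  refine ⟨hB.compact, ⟨O, r, hr⟩, h.ss, sm_md h.sφ R, by linarith,
    fun b x hx => md_far hR hx, fun b hb' x hx => ?_, fun b hb' hcr θ x t hθ h1 h2 h3 h4 => ?_⟩
  · rw [dV_md hR (key b hb' x hx).1]
    exact h.reg b hb' x (key b hb' x hx).2
  · rw [dV_md hR (key b hb' _ h1).1] at h3
    rw [dV_md hR (key b hb' _ h2).1] at h4
    have n1 : 0 < ‖dV φ b x‖ := norm_pos_iff.2 (h.reg b hb' x (key b hb' x h1).2)
    have n2 : 0 < ‖dV φ b (x + t • θ)‖ := norm_pos_iff.2 (h.reg b hb' _ (key b hb' _ h2).2)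
    have h5 := h.chord b hb' hcr x (x + t • θ) (key b hb' _ h1).2 (key b hb' _ h2).2
      ⟨‖dV φ b (x + t • θ)‖ / ‖dV φ b x‖, div_pos n2 n1, by
        ext w
        rw [smul_apply, h4 w, h3 w, smul_eq_mul]
        field_simp⟩ (by
        intro v hv
        rw [h3 v] at hv
        rw [add_sub_cancel_left, real_inner_smul_left, (mul_eq_zero.1 hv).resolve_left n1.ne',
          mul_zero])
    have h6 : t • θ = 0 := by simpa using h5
    refine (smul_eq_zero.1 h6).resolve_right fun h0 => ?_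
    rw [h0, norm_zero] at hθ
    exact zero_ne_one hθ

theorem fa_inv {ψ : Eb × U → ℝ} (hψ : ∀ g, ∀ b ∈ B, ∀ x, ψ (β g b, ρ g x) = ψ (b, x))
    (hs : ∀ g, ∀ b ∈ B, s (β g b) = s b) (K d A a : ℝ) (g : G) {q : Bs Eb U} (hq : q ∈ QtOf U B)
    (x : U) : fa s ψ K d A a (prodRep β ρ g q, ρ g x) = fa s ψ K d A a (q, x) := by
  have e1 : (prodRep β ρ g q).fst = β g q.fst := rfl
  have e2 : (prodRep β ρ g q).snd = ρ g q.snd := rfl
  simp only [fa, g1, f0, fp, e1, e2, hψ g _ hq.1, hs g _ hq.1, LinearIsometryEquiv.inner_map_map]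

/-- the connectedness of the critical set -/
def Conn : Prop :=
  ∀ (Eb : Type) [NormedAddCommGroup Eb] [InnerProductSpace ℝ Eb] [FiniteDimensional ℝ Eb]
    (U : Type) [NormedAddCommGroup U] [InnerProductSpace ℝ U] [FiniteDimensional ℝ U]
    (B : Set Eb) (s : Eb → ℝ) (φ : Eb × U → ℝ) (R K d c δ : ℝ), Core B s φ R →
    Good B s φ K d c δ → IsConnected B → ∀ k : ℕ, Module.finrank ℝ U = k + 2 →
    (∃ b ∈ B, (∀ x, ‖x‖ ^ 2 - 1 ≤ φ (b, x)) ∧ ∀ x, ‖x‖ < 1 → φ (b, x) = ‖x‖ ^ 2 - 1) →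
    IsConnected (SS B φ K d)

theorem stFam_of (hC : Conn) : StFam := by
  intro G _ Eb _ _ _ U _ _ _ β ρ m k B φ s hB hU h
  obtain ⟨R₀, hR₀⟩ := h.bdd
  obtain ⟨R, hR, hb⟩ : ∃ R, 0 ≤ R ∧ ∀ b ∈ B, ∀ x, R ≤ ‖x‖ → 0 < φ (b, x) :=
    ⟨max R₀ 0, le_max_right _ _, fun b hb x hx => hR₀ b hb x ((le_max_left _ _).trans hx)⟩
  have hc := core_md hB h hR hb
  obtain ⟨K, d, c, δ, g⟩ := hc.good
  obtain ⟨A, hA⟩ := g.scale hc
  have hd := g.hd
  refine ⟨SS B (md φ R) K d, f0 s (md φ R) K d A, hC _ _ B s _ _ K d c δ hc g hB.conn k hU ?_,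
    fun C => ?_⟩
  · obtain ⟨b, hb', h1⟩ := h.round
    refine ⟨b, hb', fun x => ?_, fun x hx => by rw [md_near hR (by linarith), h1]⟩
    simp only [md, h1]
    nlinarith [Real.smoothTransition.nonneg (‖x‖ ^ 2 - (R + 1) ^ 2)]
  obtain ⟨a, ha, b1, b2, b3, b4, b5⟩ := g.bar hc A (max C 1)
  have hev : ∀ y ∈ SS B (md φ R) K d, fa s (md φ R) K d A a =ᶠ[𝓝 y] f0 s (md φ R) K d A :=
    fun y hy => fa_eq hc.sφ hd (g.strict hy)
  have hmem : ∀ q ∈ QtOf U B, ∀ x, dV (fa s (md φ R) K d A a) q x = 0 →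
      |fa s (md φ R) K d A a (q, x)| < a → (q, x) ∈ SS B (md φ R) K d := by
    intro q hq x h1 h2
    rw [← b2]
    exact ⟨hq, h1, h2⟩
  refine ⟨a, fa s (md φ R) K d A a, ⟨sm_fa hc.ss hc.sφ K d A a, fun g' q hq x => ?_,
    ⟨a / (3 * d), by positivity, R + 2 + 1, fun q _ x hx => g.far hc ha q hx⟩, fun q hq x h0 => ?_⟩,
    ⟨fun q hq x h0 => ?_, fun q hq x x' h1 h2 h3 h4 hu => ?_, fun q hq x h1 h2 v hv => ?_⟩, b2,
    fun y hy => (hev y hy).fderiv_eq, ⟨b3, fun q hq x hx => ?_, fun q _ x hx => ?_, ?_⟩⟩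
  · refine fa_inv (fun g' b hb' x => ?_) h.invs K d A a g' hq x
    simp only [md, h.invφ g' b hb', LinearIsometryEquiv.norm_map]
  · exact (b1 q hq x h0).imp (fun e => by linarith [le_max_right C 1])
      fun e => by linarith [le_max_right C 1]
  · exact (b1 q hq x h0).imp (fun e => by linarith [le_max_left C 1])
      fun e => by linarith [le_max_left C 1]
  · refine hA q x x' (hmem q hq x h1 h3) (hmem q hq x' h2 h4) fun u hu' => ?_
    rw [← (hev _ (hmem q hq x h1 h3)).fderiv_eq, ← (hev _ (hmem q hq x' h2 h4)).fderiv_eq]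
    exact hu u hu'
  · refine g.reg hc A (hmem q hq x h1 h2) v fun u hu w => (hv u hu w).congr_of_eventuallyEq ?_
    have a1 : Tendsto (fun t : ℝ => (q, x + t • v)) (𝓝 0) (𝓝 (q, x)) := by
      have a2 := (line0 q x v 0).continuousAt.tendsto
      simpa using a2
    filter_upwards [a1.eventually (hev _ (hmem q hq x h1 h2)).eventuallyEq_nhds] with t ht
    rw [ht.fderiv_eq]
  · refine b4 q hq x ?_
    rwa [md_near hR]
    by_contra h2
    exact absurd (hb _ hq.1 x (by linarith [not_le.1 h2])) (by linarith)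
  · exact b5 q x (md_pos hR hx)
  · refine ⟨d, hd, a / (3 * d), by positivity, R, hb, fun q x h1 h2 => ?_⟩
    rw [fa_col hd (by simp only; rwa [md_near hR h1])]
    simp only
    rw [md_near hR h1]

end Vale.Agent.P220Z.Cn.Fm
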