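import Vale.Agent.P220Z.Cn.Defs
import Vale.Agent.P220.R2.H180.Fix

/-!
# P220: images of compact submanifolds under immersions whose fibres are orbits
-/

open Set Filter Topology
open scoped ContDiff

namespace Vale.Agent.P220Z.Cn

open Vale.Agent.P220.R2.H57 Vale.Agent.P220.R2

namespace Img

variable {X : Type} [NormedAddCommGroup X] [NormedSpace ℝ X] [FiniteDimensional ℝ X]
  {Y : Type} [NormedAddCommGroup Y] [NormedSpace ℝ Y] [FiniteDimensional ℝ Y]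
  {S U : Set X} {r : X → X} {ι : X → Y} {y : X}

/-- a smooth local left inverse of an immersion -/
theorem exists_inv (hr : IsRet S U r) (hι : ContDiff ℝ ∞ ι) (hy : y ∈ S)
    (hi : ∀ u ∈ Tn r y, fderiv ℝ ι y u = 0 → u = 0) :
    ∃ μ : Y → X, ContDiff ℝ ∞ μ ∧ (∀ᶠ w in 𝓝 (ι y), μ w ∈ S) ∧
      ∀ᶠ x in 𝓝 y, x ∈ S → μ (ι x) = x := by
  have hf : ContDiff ℝ ∞ fun x => (ι (r x), x - r x) :=
    (hι.comp hr.smooth).prodMk (contDiff_id.sub hr.smooth)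
  have hd : HasFDerivAt (fun x => (ι (r x), x - r x))
      (((fderiv ℝ ι (r y)).comp (fderiv ℝ r y)).prod
        (ContinuousLinearMap.id ℝ X - fderiv ℝ r y)) y :=
    ((hι.differentiable (by simp) _).hasFDerivAt.comp y (hr.hasFDerivAt y)).prodMk
      ((hasFDerivAt_id y).sub (hr.hasFDerivAt y))
  obtain ⟨O, hO, m, hm, hmf⟩ := exists_leftInv hf (x₀ := y) fun v hv => by
    rw [hd.fderiv, hr.fix y hy] at hv
    have h1 : fderiv ℝ ι y (fderiv ℝ r y v) = 0 := congrArg Prod.fst hv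
    have h2 : v - fderiv ℝ r y v = 0 := congrArg Prod.snd hv
    rw [sub_eq_zero.1 h2]
    exact hi _ (hr.fderiv_mem hy v) h1
  obtain ⟨m', hm', he⟩ := H481.exists_germ_ext hO hm
  have h1 : ∀ᶠ x in 𝓝 y, m' (ι (r x), x - r x) = x := by
    filter_upwards [hmf, hf.continuous.continuousAt.eventually he] with x h2 h3
    exact h3.trans h2
  have h2 : m' (ι y, 0) = y := by
    have := h1.self_of_nhds
    rwa [hr.fix y hy, sub_self] at this
  have hk : ContDiff ℝ ∞ fun w : Y => m' (w, 0) := hm'.comp (contDiff_id.prodMk contDiff_const)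
  refine ⟨fun w => r (m' (w, 0)), hr.smooth.comp hk, ?_, ?_⟩
  · have h3 : ∀ᶠ x in 𝓝 (m' (ι y, 0)), x ∈ U := by
      rw [h2]; exact hr.isOpen.mem_nhds (hr.sub hy)
    filter_upwards [hk.continuous.continuousAt.eventually h3] with w hw using hr.maps _ hw
  · filter_upwards [h1] with x hx hxS
    rw [hr.fix x hxS, sub_self] at hx
    rw [hx, hr.fix x hxS]

omit [FiniteDimensional ℝ Y] in
/-- the derivative of a local left inverse -/
theorem fderiv_inv (hr : IsRet S U r) (hι : ContDiff ℝ ∞ ι) (hy : y ∈ S) {μ : Y → X}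
    (hμ : ContDiff ℝ ∞ μ) (h1 : ∀ᶠ w in 𝓝 (ι y), μ w ∈ S)
    (h2 : ∀ᶠ x in 𝓝 y, x ∈ S → μ (ι x) = x) :
    (∀ v, fderiv ℝ μ (ι y) v ∈ Tn r y) ∧
      (∀ u ∈ Tn r y, fderiv ℝ μ (ι y) (fderiv ℝ ι y u) = u) ∧
      ∀ v, fderiv ℝ (fun w => ι (μ w)) (ι y) v = fderiv ℝ ι y (fderiv ℝ μ (ι y) v) := by
  have e : μ (ι y) = y := h2.self_of_nhds hy
  have dμ : HasFDerivAt μ (fderiv ℝ μ (ι y)) (ι y) := (hμ.differentiable (by simp) _).hasFDerivAt
  have dι : HasFDerivAt ι (fderiv ℝ ι y) y := (hι.differentiable (by simp) _).hasFDerivAt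
  refine ⟨fun v => ?_, fun u hu => ?_, fun v => ?_⟩
  · have h3 : HasFDerivAt r (fderiv ℝ r y) (μ (ι y)) := by rw [e]; exact hr.hasFDerivAt y
    have h4 : (fun w => r (μ w)) =ᶠ[𝓝 (ι y)] μ := by
      filter_upwards [h1] with w hw using hr.fix _ hw
    exact congrArg (fun C => C v) ((h3.comp (ι y) dμ).unique (dμ.congr_of_eventuallyEq h4))
  · have h3 : HasFDerivAt ι (fderiv ℝ ι y) (r y) := by rw [hr.fix y hy]; exact dι
    have h4 : HasFDerivAt μ (fderiv ℝ μ (ι y)) (ι (r y)) := by rw [hr.fix y hy]; exact dμ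
    have h5 : ∀ᶠ x in 𝓝 (r y), x ∈ S → μ (ι x) = x := by rw [hr.fix y hy]; exact h2
    have h6 : (fun x => μ (ι (r x))) =ᶠ[𝓝 y] r := by
      filter_upwards [hr.smooth.continuous.continuousAt.eventually h5,
        hr.isOpen.mem_nhds (hr.sub hy)] with x h7 h8 using h7 (hr.maps x h8)
    have h7 : fderiv ℝ μ (ι y) (fderiv ℝ ι y (fderiv ℝ r y u)) = fderiv ℝ r y u :=
      congrArg (fun C => C u) ((h4.comp y (h3.comp y (hr.hasFDerivAt y))).unique
        ((hr.hasFDerivAt y).congr_of_eventuallyEq h6))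
    rwa [mem_Tn.1 hu] at h7
  · have h3 : HasFDerivAt ι (fderiv ℝ ι y) (μ (ι y)) := by rw [e]; exact dι
    exact congrArg (fun C => C v) (h3.comp (ι y) dμ).fderiv

end Img

open Img

theorem stImg : StImg := by
  intro Γ X _ _ _ Y _ _ _ γ n S ι hS hc hι hγ hγS hγι hfib hi
  obtain ⟨U, r, hr, hn⟩ := exists_ret hS hc
  have hi' : ∀ y ∈ S, ∀ u ∈ Tn r y, fderiv ℝ ι y u = 0 → u = 0 := fun y hy u hu =>
    hi y hy u ((hr.mem_Tan hy).2 hu)
  have key : ∀ y ∈ S, ∃ μ : Y → X, ContDiff ℝ ∞ μ ∧ (∀ᶠ w in 𝓝 (ι y), μ w ∈ S) ∧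
      (∀ᶠ x in 𝓝 y, x ∈ S → μ (ι x) = x) ∧ ∀ᶠ w in 𝓝 (ι y), w ∈ ι '' S → ι (μ w) = w := by
    intro y hy
    obtain ⟨μ, hμ, h1, h2⟩ := exists_inv hr hι hy (hi' y hy)
    refine ⟨μ, hμ, h1, h2, ?_⟩
    obtain ⟨N, hN, hNo, hyN⟩ := eventually_nhds_iff.1 h2
    have hK : IsCompact (S ∩ ⋂ g, γ g ⁻¹' Nᶜ) :=
      hc.inter_right (isClosed_iInter fun g => hNo.isClosed_compl.preimage (hγ g))
    have hy' : ι y ∉ ι '' (S ∩ ⋂ g, γ g ⁻¹' Nᶜ) := by
      rintro ⟨x, ⟨hx, hx'⟩, e⟩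
      obtain ⟨g, hg⟩ := hfib y hy x hx e.symm
      exact mem_iInter.1 hx' g (by rw [hg]; exact hyN)
    filter_upwards [(hK.image hι.continuous).isClosed.isOpen_compl.mem_nhds hy'] with w hw
    rintro ⟨x, hx, rfl⟩
    have : ∃ g, γ g x ∈ N := by
      by_contra h
      exact hw ⟨x, ⟨hx, mem_iInter.2 fun g hg => h ⟨g, hg⟩⟩, rfl⟩
    obtain ⟨g, hg⟩ := this
    rw [← hγι g x hx, hN _ hg (hγS g x hx)]
  refine ⟨?_, fun y hy v hv => ?_, fun f hf hfγ => ?_⟩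
  · rintro _ ⟨y, hy, rfl⟩
    obtain ⟨μ, hμ, h1, h2, h3⟩ := key y hy
    obtain ⟨d1, d2, d3⟩ := fderiv_inv hr hι hy hμ h1 h2
    have hρ : H180.LocRet (ι '' S) (ι y) fun w => ι (μ w) :=
      ⟨⟨y, hy, rfl⟩, hι.comp hμ, h1.mono fun w hw => ⟨_, hw, rfl⟩, h3⟩
    obtain ⟨P, hP, hP2⟩ := exists_projection (Tn (fun w => ι (μ w)) (ι y))
    obtain ⟨Θ, k1, k2, k3, k4, -, -⟩ := hρ.exists_chart hP hP2
    refine ⟨Θ, _, k1, k2, k3, ?_, k4⟩
    have e : Tn (fun w => ι (μ w)) (ι y) =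
        LinearMap.range ((fderiv ℝ ι y : X →ₗ[ℝ] Y).domRestrict (Tn r y)) := by
      ext v
      rw [mem_Tn, d3]
      constructor
      · exact fun h => ⟨⟨_, d1 v⟩, h⟩
      · rintro ⟨⟨u, hu⟩, rfl⟩
        exact congrArg _ (d2 u hu)
    rw [e, LinearMap.finrank_range_of_inj, hn y hy]
    exact (injective_iff_map_eq_zero _).2 fun u hu => Subtype.ext (hi' y hy u u.2 hu)
  · obtain ⟨μ, hμ, h1, h2, h3⟩ := key y hy
    obtain ⟨d1, -, d3⟩ := fderiv_inv hr hι hy hμ h1 h2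
    refine ⟨_, (hr.mem_Tan hy).2 (d1 v), ?_⟩
    obtain ⟨c, hcs, hcS, h0, hv⟩ := hv
    have h4 : HasDerivAt c v 0 := by
      rw [← hv]
      exact (hcs.differentiable (by simp) 0).hasDerivAt
    have h5 : HasFDerivAt (fun w => ι (μ w)) (fderiv ℝ (fun w => ι (μ w)) (ι y)) (c 0) := by
      rw [h0]
      exact ((hι.comp hμ).differentiable (by simp) _).hasFDerivAt
    have h6 : (fun t => ι (μ (c t))) =ᶠ[𝓝 0] c := by
      rw [← h0] at h3
      filter_upwards [hcs.continuous.continuousAt.eventually h3] with t ht using ht (hcS t)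
    rw [← d3]
    exact (h5.comp_hasDerivAt 0 h4).unique (h4.congr_of_eventuallyEq h6)
  · have hff : ∀ x ∈ S, ∀ x' ∈ S, ι x = ι x' → f x = f x' := fun x hx x' hx' e => by
      obtain ⟨g, rfl⟩ := hfib x hx x' hx' e
      exact hfγ g x' hx'
    obtain ⟨f', hf', he⟩ := glue (hc.image hι.continuous).isClosed
      (fun w => f (Function.invFunOn ι S w)) (by
        rintro _ ⟨y, hy, rfl⟩
        obtain ⟨μ, hμ, h1, -, h3⟩ := key y hy
        exact ⟨_, h1.and h3, fun w => f (μ w), (hf.comp hμ).contDiffOn, fun w hw hw' =>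
          hff _ hw.1 _ (Function.invFunOn_mem hw')
            ((hw.2 hw').trans (Function.invFunOn_eq hw').symm)⟩)
    exact ⟨f', hf', fun x hx => (he _ ⟨x, hx, rfl⟩).trans
      (hff _ (Function.invFunOn_mem ⟨x, hx, rfl⟩) _ hx (Function.invFunOn_eq ⟨x, hx, rfl⟩))⟩

end Vale.Agent.P220Z.Cn
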