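import Vale.Agent.P220Z.Cn.Defs
import Vale.Agent.P220Z.Per.Rigid

/-!
# P220, construction: a generating family generates a closed exact Lagrangian
-/

open Set Filter Topology
open scoped ContDiff RealInnerProductSpace

set_option linter.unusedSectionVars false

namespace Vale.Agent.P220Z.Cn

open Vale.Agent.P220.R2.H57 Vale.Agent.P220Z.Per

namespace Lg

section Curves

variable {X : Type} [NormedAddCommGroup X] [NormedSpace ℝ X]
  {Y : Type} [NormedAddCommGroup Y] [NormedSpace ℝ Y]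

theorem tan_curve {S : Set X} {x v : X} (h : v ∈ Tan S x) :
    ∃ c : ℝ → X, ContDiff ℝ ∞ c ∧ (∀ t, c t ∈ S) ∧ c 0 = x ∧ HasDerivAt c v 0 := by
  obtain ⟨c, hc, hS, h0, hv⟩ := h
  refine ⟨c, hc, hS, h0, ?_⟩
  rw [← hv]
  exact (hc.differentiable (by simp) 0).hasDerivAt

theorem zero_tan {S : Set X} {x : X} (hx : x ∈ S) : (0 : X) ∈ Tan S x :=
  ⟨fun _ => x, contDiff_const, fun _ => hx, rfl, by simp⟩

theorem comp_curve {f : X → Y} (hf : ContDiff ℝ ∞ f) {c : ℝ → X} {x v : X} (h0 : c 0 = x)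
    (hc : HasDerivAt c v 0) : HasDerivAt (fun t => f (c t)) (fderiv ℝ f x v) 0 := by
  have h1 : HasFDerivAt f (fderiv ℝ f x) (c 0) := by
    rw [h0]; exact (hf.differentiable (by simp) x).hasFDerivAt
  exact h1.comp_hasDerivAt (0 : ℝ) hc

/-- smooth maps of sets map tangent vectors to tangent vectors -/
theorem push {S : Set X} {T : Set Y} {f : X → Y} (hf : ContDiff ℝ ∞ f) (hm : ∀ x ∈ S, f x ∈ T)
    {x v : X} (h : v ∈ Tan S x) : fderiv ℝ f x v ∈ Tan T (f x) := by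
  obtain ⟨c, hc, hS, h0, hv⟩ := tan_curve h
  exact ⟨fun t => f (c t), hf.comp hc, fun t => hm _ (hS t), by simp only [h0],
    (comp_curve hf h0 hv).deriv⟩

/-- maps that agree on a set have the same differential on tangent vectors -/
theorem fderiv_congr {S : Set X} {f g : X → Y} (hf : ContDiff ℝ ∞ f) (hg : ContDiff ℝ ∞ g)
    (hfg : ∀ x ∈ S, f x = g x) {x v : X} (h : v ∈ Tan S x) :
    fderiv ℝ f x v = fderiv ℝ g x v := by
  obtain ⟨c, -, hS, h0, hv⟩ := tan_curve h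
  have h1 := comp_curve hf h0 hv
  have h2 := comp_curve hg h0 hv
  have h3 : (fun t => f (c t)) = fun t => g (c t) := funext fun t => hfg _ (hS t)
  rw [h3] at h1
  exact h1.unique h2

theorem tan_prod {S : Set X} {b u : X} (h : u ∈ Tan S b) (x w : Y) :
    (u, w) ∈ Tan {y : X × Y | y.1 ∈ S} (b, x) := by
  obtain ⟨c, hc, hS, h0, hv⟩ := tan_curve h
  refine ⟨fun t => (c t, x + t • w), hc.prodMk (contDiff_const.add (contDiff_id.smul
    contDiff_const)), fun t => hS t, by simp [h0], ?_⟩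
  exact (hv.prodMk (Aux.hasDerivAt_line x w 0)).deriv

end Curves

variable {G : Type} [Group G]
  {E : Type} [NormedAddCommGroup E] [InnerProductSpace ℝ E] [FiniteDimensional ℝ E]
  {E' : Type} [NormedAddCommGroup E'] [InnerProductSpace ℝ E'] [FiniteDimensional ℝ E']
  {V : Type} [NormedAddCommGroup V] [InnerProductSpace ℝ V] [FiniteDimensional ℝ V]
  {α : G →* (E ≃ₗᵢ[ℝ] E)} {ρ : G →* (V ≃ₗᵢ[ℝ] V)} {Qt : Set E} {Q : Set E'} {P : E → E'}
  {a m : ℝ} {F : E × V → ℝ}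

/-- a tangent covector is determined by its pull-back -/
theorem uniq (hC : IsCover α Qt Q P) {b : E} (hb : b ∈ Qt) {p p' : E'} (hp : p ∈ Tan Q (P b))
    (hp' : p' ∈ Tan Q (P b))
    (h : ∀ u ∈ Tan Qt b, ⟪p, fderiv ℝ P b u⟫ = ⟪p', fderiv ℝ P b u⟫) : p = p' := by
  obtain ⟨u, hu, e1⟩ := hC.surj b hb p hp
  obtain ⟨u', hu', e2⟩ := hC.surj b hb p' hp'
  have h1 := h u hu
  have h2 := h u' hu'
  rw [e1] at h1
  rw [e2] at h2
  have h3 : ⟪p - p', p - p'⟫ = 0 := by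
    rw [inner_sub_left, inner_sub_right, inner_sub_right, h1, h2]
    ring
  exact sub_eq_zero.1 (inner_self_eq_zero.1 h3)

theorem exists_cov (hC : IsCover α Qt Q P) {b : E} (hb : b ∈ Qt) (l : E →L[ℝ] ℝ) :
    ∃ p ∈ Tan Q (P b), ∀ u ∈ Tan Qt b, ⟪p, fderiv ℝ P b u⟫ = l u := by
  obtain ⟨U, r, hr⟩ := hC.retT
  obtain ⟨U', r', hr'⟩ := hC.ret
  have : CompleteSpace E' := FiniteDimensional.complete ℝ E'
  obtain ⟨B, hB⟩ := exists_left_inverse_clm ((fderiv ℝ P b).comp (Tn r b).subtypeL) (by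
    intro u hu
    exact Subtype.ext (hC.inj b hb u ((hr.mem_Tan hb).2 u.2) hu))
  set q : E' := (InnerProductSpace.toDual ℝ E').symm (l.comp ((Tn r b).subtypeL.comp B)) with hq
  refine ⟨(Tn r' (P b)).starProjection q, (hr'.mem_Tan (hC.maps b hb)).2
    (Submodule.starProjection_apply_mem _ _), fun u hu => ?_⟩
  have h1 : fderiv ℝ P b u ∈ Tn r' (P b) :=
    (hr'.mem_Tan (hC.maps b hb)).1 (push hC.smooth hC.maps hu)
  have h2 : ⟪q - (Tn r' (P b)).starProjection q, fderiv ℝ P b u⟫ = 0 :=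
    Submodule.starProjection_inner_eq_zero q _ h1
  rw [inner_sub_left, sub_eq_zero] at h2
  rw [← h2, hq, InnerProductSpace.toDual_symm_apply]
  have h3 := hB ⟨u, (hr.mem_Tan hb).1 hu⟩
  simp only [ContinuousLinearMap.comp_apply, Submodule.subtypeL_apply] at h3 ⊢
  rw [h3]

/-- the smooth covector generated by `F` -/
theorem exists_p (hC : IsCover α Qt Q P) (hF : ContDiff ℝ ∞ F) :
    ∃ p : E × V → E', ContDiff ℝ ∞ p ∧
      ∀ y : E × V, y.1 ∈ Qt → p y ∈ Tan Q (P y.1) ∧ Cov Qt P F y.1 y.2 (p y) := by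
  obtain ⟨U, r, hr⟩ := hC.retT
  obtain ⟨U', r', hr'⟩ := hC.ret
  have hdr : ContDiff ℝ ∞ (fderiv ℝ r) := hr.smooth.fderiv_right (m := ∞) (by simp)
  have hdr' : ContDiff ℝ ∞ (fderiv ℝ r') := hr'.smooth.fderiv_right (m := ∞) (by simp)
  have hdP : ContDiff ℝ ∞ (fderiv ℝ P) := hC.smooth.fderiv_right (m := ∞) (by simp)
  have hdF : ContDiff ℝ ∞ (fderiv ℝ F) := hF.fderiv_right (m := ∞) (by simp)
  let J : E' →L[ℝ] E' →L[ℝ] ℝ := innerSL ℝ
  have hJ : ∀ p v, J p v = ⟪p, v⟫ := fun _ _ => rfl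
  let A : E × V → E' →L[ℝ] E' × (E →L[ℝ] ℝ) := fun y =>
    (ContinuousLinearMap.id ℝ E' - fderiv ℝ r' (P y.1)).prod
      (((ContinuousLinearMap.compL ℝ E E' ℝ).flip
        ((fderiv ℝ P y.1).comp (fderiv ℝ r y.1))).comp J)
  have hA1 : ∀ y p, (A y p).1 = p - fderiv ℝ r' (P y.1) p := fun _ _ => rfl
  have hA2 : ∀ y p u, (A y p).2 u = ⟪p, fderiv ℝ P y.1 (fderiv ℝ r y.1 u)⟫ := fun _ _ _ => rfl
  let Y : E × V → E' × (E →L[ℝ] ℝ) := fun y =>
    (0, (fderiv ℝ F y).comp ((ContinuousLinearMap.inl ℝ E V).comp (fderiv ℝ r y.1)))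
  have hY2 : ∀ y u, (Y y).2 u = fderiv ℝ F y (fderiv ℝ r y.1 u, 0) := fun _ _ => rfl
  have hAs : ContDiff ℝ ∞ A := by
    rw [contDiff_clm_apply_iff]
    intro p
    refine ContDiff.prodMk (f := fun y => (A y p).1) (g := fun y => (A y p).2) ?_ ?_
    · simp only [hA1]
      exact contDiff_const.sub ((hdr'.comp (hC.smooth.comp contDiff_fst)).clm_apply contDiff_const)
    · rw [contDiff_clm_apply_iff]
      intro u
      simp only [hA2]
      exact contDiff_const.inner ℝ ((hdP.comp contDiff_fst).clm_apply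
        ((hdr.comp contDiff_fst).clm_apply contDiff_const))
  have hYs : ContDiff ℝ ∞ Y :=
    contDiff_const.prodMk (hdF.clm_comp (contDiff_const.clm_comp (hdr.comp contDiff_fst)))
  have key : ∀ y : E × V, y.1 ∈ Qt → ∀ p, A y p = Y y ↔
      p ∈ Tan Q (P y.1) ∧ Cov Qt P F y.1 y.2 p := by
    intro y hy p
    constructor
    · intro h
      refine ⟨(hr'.mem_Tan (hC.maps _ hy)).2 ?_, fun u hu => ?_⟩
      · have h1 : (A y p).1 = 0 := congrArg Prod.fst h
        rw [hA1, sub_eq_zero] at h1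
        exact h1.symm
      · have h1 : (A y p).2 u = (Y y).2 u := by rw [h]
        rwa [hA2, hY2, mem_Tn.1 ((hr.mem_Tan hy).1 hu)] at h1
    · rintro ⟨h1, h2⟩
      refine Prod.ext ?_ (ContinuousLinearMap.ext fun u => ?_)
      · rw [hA1, mem_Tn.1 ((hr'.mem_Tan (hC.maps _ hy)).1 h1), sub_self]
      · rw [hA2, hY2]
        exact h2 _ ((hr.mem_Tan hy).2 (hr.fderiv_mem hy u))
  obtain ⟨p, hp, hpA⟩ := linSolve (S := {y : E × V | y.1 ∈ Qt})
    (hr.isClosed.preimage continuous_fst) hAs hYs (by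
      intro y hy p hp
      have h1 : (A y p).1 = 0 := congrArg Prod.fst hp
      rw [hA1, sub_eq_zero] at h1
      refine uniq hC hy ((hr'.mem_Tan (hC.maps _ hy)).2 h1.symm) (zero_tan (hC.maps _ hy))
        fun u hu => ?_
      have h2 : (A y p).2 u = 0 := by rw [hp]; rfl
      rw [hA2, mem_Tn.1 ((hr.mem_Tan hy).1 hu)] at h2
      rw [h2, inner_zero_left]) (by
      intro y hy
      obtain ⟨p, h1, h2⟩ := exists_cov hC hy ((fderiv ℝ F y).comp (ContinuousLinearMap.inl ℝ E V))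
      exact ⟨p, (key y hy p).2 ⟨h1, h2⟩⟩)
  exact ⟨p, hp, fun y hy => (key y hy _).1 (hpA y hy)⟩

theorem act_inv (g : G) (b : E) : α g⁻¹ (α g b) = b := by
  rw [map_inv]
  exact (α g).symm_apply_apply b

theorem act_inv' (g : G) (b : E) : α g (α g⁻¹ b) = b := by
  rw [map_inv]
  exact (α g).apply_symm_apply b

theorem act_tan (hC : IsCover α Qt Q P) (g : G) {b u : E} (hu : u ∈ Tan Qt b) :
    α g u ∈ Tan Qt (α g b) := by
  have h := push (α g).contDiff (hC.act g) hu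
  have e : fderiv ℝ (α g) b u = α g u :=
    congrArg (fun C => C u) (α g).toContinuousLinearEquiv.hasFDerivAt.fderiv
  rwa [e] at h

theorem dP_inv (hC : IsCover α Qt Q P) (g : G) {b u : E} (hu : u ∈ Tan Qt b) :
    fderiv ℝ P (α g b) (α g u) = fderiv ℝ P b u := by
  have h := fderiv_congr (hC.smooth.comp (α g).contDiff) hC.smooth (hC.inv g) hu
  rw [← h]
  have h1 := ((hC.smooth.differentiable (by simp) (α g b)).hasFDerivAt.comp b
    (α g).toContinuousLinearEquiv.hasFDerivAt).fderiv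
  exact (congrArg (fun C => C u) h1).symm

theorem dF_inv (hA : IsAdm α Qt a ρ F) (g : G) {b u : E} (hu : u ∈ Tan Qt b) (x w : V) :
    fderiv ℝ F (α g b, ρ g x) (α g u, ρ g w) = fderiv ℝ F (b, x) (u, w) := by
  let T : E × V →L[ℝ] E × V := ((α g).toContinuousLinearEquiv : E →L[ℝ] E).prodMap
    ((ρ g).toContinuousLinearEquiv : V →L[ℝ] V)
  have h := fderiv_congr (hA.smooth.comp T.contDiff) hA.smooth
    (S := {y : E × V | y.1 ∈ Qt}) (fun y hy => hA.inv g y.1 hy y.2) (tan_prod hu x w)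
  rw [← h]
  have h1 := ((hA.smooth.differentiable (by simp) (T (b, x))).hasFDerivAt.comp (b, x)
    T.hasFDerivAt).fderiv
  exact (congrArg (fun C => C (u, w)) h1).symm

theorem sig_inv (hC : IsCover α Qt Q P) (hA : IsAdm α Qt a ρ F) (g : G) {y : E × V}
    (hy : y ∈ Sig Qt a F) : (α g y.1, ρ g y.2) ∈ Sig Qt a F := by
  obtain ⟨h1, h2, h3⟩ := hy
  refine ⟨hC.act g _ h1, ContinuousLinearMap.ext fun w => ?_, by rwa [hA.inv g _ h1]⟩
  have h4 := dF_inv hA g (zero_tan h1) y.2 (ρ g⁻¹ w)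
  rw [map_zero, act_inv', ← Aux.dV_apply hA.smooth y.1, h2] at h4
  rw [Aux.dV_apply hA.smooth]
  exact h4

theorem cov_inv (hC : IsCover α Qt Q P) (hA : IsAdm α Qt a ρ F) (g : G) {b : E} {x : V} {p : E'}
    (h : Cov Qt P F b x p) : Cov Qt P F (α g b) (ρ g x) p := by
  intro u hu
  have h1 : α g⁻¹ u ∈ Tan Qt b := by
    have := act_tan hC g⁻¹ hu
    rwa [act_inv] at this
  have h2 := dP_inv hC g h1
  have h3 := dF_inv hA g h1 x 0
  rw [act_inv'] at h2
  rw [act_inv', map_zero] at h3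
  rw [h2, h3]
  exact h _ h1

theorem tan_sig {y v : E × V} (hv : v ∈ Tan (Sig Qt a F) y) : v.1 ∈ Tan Qt y.1 := by
  have h := push (contDiff_fst (𝕜 := ℝ) (E := E) (F := V)) (S := Sig Qt a F) (T := Qt)
    (fun y hy => hy.1) hv
  rwa [fderiv_fst] at h

theorem split (l : E × V →L[ℝ] ℝ) (u : E) (w : V) : l (u, w) = l (u, 0) + l (0, w) := by
  rw [← map_add]
  simp

/-- the immersion property in the fibre direction -/
theorem imm (hF : ContDiff ℝ ∞ F) (hP : IsPre Qt a m F) {p : E × V → E'} (hp : ContDiff ℝ ∞ p)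
    (hc : ∀ y : E × V, y.1 ∈ Qt → Cov Qt P F y.1 y.2 (p y)) {b : E} {x w : V}
    (hy : (b, x) ∈ Sig Qt a F) (hw : ((0 : E), w) ∈ Tan (Sig Qt a F) (b, x))
    (h0 : fderiv ℝ p (b, x) (0, w) = 0) : w = 0 := by
  refine hP.reg b hy.1 x hy.2.1 hy.2.2 w fun u hu w' => ?_
  have hl : HasDerivAt (fun t : ℝ => (b, x + t • w)) ((0 : E), w) 0 :=
    (hasDerivAt_const _ b).prodMk (Aux.hasDerivAt_line x w 0)
  have h1 : HasDerivAt (fun t : ℝ => p (b, x + t • w)) 0 0 := by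
    have := comp_curve hp (c := fun t : ℝ => (b, x + t • w)) (x := (b, x)) (by simp) hl
    rwa [h0] at this
  have h2 : HasDerivAt (fun t : ℝ => fderiv ℝ F (b, x + t • w) (u, 0)) 0 0 := by
    have h3 := h1.inner ℝ (hasDerivAt_const (0 : ℝ) (fderiv ℝ P b u))
    simp only [inner_zero_right, inner_zero_left, add_zero] at h3
    refine h3.congr_of_eventuallyEq (Eventually.of_forall fun t => ?_)
    exact (hc (b, x + t • w) hy.1 u hu).symm
  have h4 : fderiv ℝ (fderiv ℝ F) (b, x) (0, w) (0, w') = 0 := by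
    have hD : ContDiff ℝ ∞ (fderiv ℝ F) := hF.fderiv_right (m := ∞) (by simp)
    obtain ⟨c, -, hS, hc0, hv⟩ := tan_curve hw
    have h5 := (ContinuousLinearMap.apply ℝ ℝ ((0 : E), w')).hasFDerivAt.comp_hasDerivAt (0 : ℝ)
      (comp_curve hD hc0 hv)
    refine h5.unique ((hasDerivAt_const (0 : ℝ) (0 : ℝ)).congr_of_eventuallyEq
      (Eventually.of_forall fun t => ?_))
    have h6 := Aux.dV_apply hF (c t).1 (c t).2 w'
    rw [(hS t).2.1] at h6
    exact h6.symm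
  have h7 := Rig.line_deriv hF b x w (0, w')
  rw [h4] at h7
  have h8 := h2.add h7
  rw [add_zero] at h8
  refine h8.congr_of_eventuallyEq (Eventually.of_forall fun t => ?_)
  exact split _ u w'

end Lg

open Lg in
theorem stLag (hI : StImg) : StLag := by
  intro G _ E _ _ _ E' _ _ _ V _ _ _ α ρ n Qt Q P a m F hC hfib hA hP hS hK hne
  obtain ⟨p, hp, hpc⟩ := exists_p hC hA.smooth
  set ι : E × V → E' × E' := fun y => (P y.1, p y) with hι
  have hιs : ContDiff ℝ ∞ ι := (hC.smooth.comp contDiff_fst).prodMk hp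
  have hdι : ∀ y v : E × V, fderiv ℝ ι y v = (fderiv ℝ P y.1 v.1, fderiv ℝ p y v) := by
    intro y v
    have h1 := (((hC.smooth.differentiable (by simp) y.1).hasFDerivAt.comp y
      hasFDerivAt_fst).prodMk (hp.differentiable (by simp) y).hasFDerivAt).fderiv
    exact congrArg (fun C => C v) h1
  have huq : ∀ y : E × V, y.1 ∈ Qt → ∀ q ∈ Tan Q (P y.1), Cov Qt P F y.1 y.2 q → q = p y :=
    fun y hy q h1 h2 => uniq hC hy h1 (hpc y hy).1 fun u hu => by
      rw [h2 u hu, (hpc y hy).2 u hu]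
  have hL : Lag Qt Q P (Sig Qt a F) F = ι '' Sig Qt a F := by
    ext z
    constructor
    · rintro ⟨y, hy, h1, h2, h3⟩
      rw [h1] at h2
      exact ⟨y, hy, Prod.ext h1.symm (huq y hy.1 _ h2 h3).symm⟩
    · rintro ⟨y, hy, rfl⟩
      exact ⟨y, hy, rfl, (hpc y hy.1).1, (hpc y hy.1).2⟩
  have hpinv : ∀ g, ∀ y : E × V, y.1 ∈ Qt → p (α g y.1, ρ g y.2) = p y := by
    intro g y hy
    refine (huq (α g y.1, ρ g y.2) (hC.act g _ hy) _ ?_ (cov_inv hC hA g (hpc y hy).2)).symm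
    rw [hC.inv g _ hy]
    exact (hpc y hy).1
  obtain ⟨h1, h2, h3⟩ := hI G (E × V) (E' × E') (fun g y => (α g y.1, ρ g y.2)) n (Sig Qt a F) ι
    hS hK hιs (fun g => by fun_prop) (fun g y hy => sig_inv hC hA g hy)
    (fun g y hy => Prod.ext (hC.inv g _ hy.1) (hpinv g y hy.1)) (by
      intro y hy y' hy' h
      obtain ⟨g, hg⟩ := hfib y.1 hy.1 y'.1 hy'.1 (congrArg Prod.fst h)
      have e1 : p y = p y' := congrArg Prod.snd h
      have e2 := sig_inv hC hA g hy'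
      have e3 := cov_inv hC hA g (hpc y' hy'.1).2
      rw [hg] at e2 e3
      refine ⟨g, Prod.ext hg (hP.inj y.1 hy.1 _ _ e2.2.1 hy.2.1 e2.2.2 hy.2.2 fun u hu => ?_)⟩
      rw [← e3 u hu, ← e1]
      exact (hpc y hy.1).2 u hu) (by
      rintro ⟨b, x⟩ hy ⟨u, w⟩ hv h
      rw [hdι] at h
      have e1 : u = 0 := hC.inj b hy.1 u (tan_sig hv) (congrArg Prod.fst h)
      subst e1
      rw [imm hA.smooth hP hp (fun y hy => (hpc y hy).2) hy hv (congrArg Prod.snd h)]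
      rfl)
  obtain ⟨f, hf, hfF⟩ := h3 F hA.smooth fun g y hy => hA.inv g _ hy.1 _
  refine ⟨?_, ⟨hP.gap, fun b hb x e1 e2 => ?_, hP.inj, fun b hb q hq => ?_, hP.reg⟩, fun hc => ?_⟩
  · rw [hL]
    refine ⟨h1, hK.image hιs.continuous, hne.image _, ?_, f, hf, ?_⟩
    · rintro _ ⟨y, hy, rfl⟩
      exact ⟨hC.maps _ hy.1, (hpc y hy.1).1⟩
    · rintro _ ⟨⟨b, x⟩, hy, rfl⟩ v hv
      obtain ⟨⟨u, w⟩, hu, rfl⟩ := h2 _ hy v hv
      have e1 := fderiv_congr (hf.comp hιs) hA.smooth hfF hu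
      have e2 := ((hf.differentiable (by simp) (ι (b, x))).hasFDerivAt.comp (b, x)
        (hιs.differentiable (by simp) (b, x)).hasFDerivAt).fderiv
      have e3 : fderiv ℝ (f ∘ ι) (b, x) (u, w) =
          fderiv ℝ f (ι (b, x)) (fderiv ℝ ι (b, x) (u, w)) := congrArg (fun C => C (u, w)) e2
      rw [← e3, e1, split, ← Aux.dV_apply hA.smooth, hy.2.1, hdι,
        ← (hpc (b, x) hy.1).2 u (tan_sig hu)]
      simp [lam, hι]
  · exact ⟨p (b, x), ⟨(b, x), ⟨hb, e1, e2⟩, rfl, (hpc (b, x) hb).1, (hpc (b, x) hb).2⟩,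
      (hpc (b, x) hb).2⟩
  · obtain ⟨y, hy, e1, -, e3⟩ := hq
    obtain ⟨g, hg⟩ := hfib b hb y.1 hy.1 e1
    have e4 := sig_inv hC hA g hy
    have e5 := cov_inv hC hA g e3
    rw [hg] at e4 e5
    exact ⟨ρ g y.2, e4.2.1, e4.2.2, e5⟩
  · rw [hL]
    exact hc.image _ hιs.continuous.continuousOn

end Vale.Agent.P220Z.Cn
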