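import Vale.Agent.P220Z.Cn.Defs

/-!
# P220, construction of the Lagrangian: quotients by free actions of finite groups
-/

open Set Metric Filter Topology
open scoped ContDiff

namespace Vale.Agent.P220Z.Cn

open Vale.Agent.P220.R2.H57 Vale.Agent.P220Z.Per

namespace Quo

variable {G : Type} [Group G] [Fintype G] {E : Type} [NormedAddCommGroup E]
  [InnerProductSpace ℝ E] [FiniteDimensional ℝ E] (α : G →* (E ≃ₗᵢ[ℝ] E)) {b : E}

/-- the averaged bump map -/
noncomputable def avg (χ : ContDiffBump b) (y : E) : E × ℝ := ∑ g, χ (α g y) • (α g y, (1 : ℝ))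

theorem avg_smooth (χ : ContDiffBump b) : ContDiff ℝ ∞ (avg α χ) :=
  ContDiff.sum fun g _ => (χ.contDiff.comp (α g).contDiff).smul
    ((α g).contDiff.prodMk contDiff_const)

theorem avg_inv (χ : ContDiffBump b) (h : G) (y : E) : avg α χ (α h y) = avg α χ y :=
  Fintype.sum_equiv (Equiv.mulRight h) _ _ fun g => by
    rw [Equiv.coe_mulRight, map_mul]
    rfl

variable {α}

theorem avg_eq (χ : ContDiffBump b) (hd : ∀ g ≠ 1, 2 * χ.rOut ≤ ‖α g b - b‖) {g : G} {y : E}
    (hy : α g y ∈ ball b χ.rOut) : avg α χ y = χ (α g y) • (α g y, (1 : ℝ)) := by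
  refine Finset.sum_eq_single g (fun h _ hne => ?_) fun h => (h (Finset.mem_univ g)).elim
  rw [χ.zero_of_le_dist, zero_smul]
  by_contra hlt
  have h1 := hd (h * g⁻¹) fun e => hne (mul_inv_eq_one.1 e)
  have h2 : α (h * g⁻¹) (α g y) = α h y := by
    show (α (h * g⁻¹) * α g) y = _
    rw [← map_mul, inv_mul_cancel_right]
  have h3 : dist (α (h * g⁻¹) b) (α h y) < χ.rOut := by
    rw [← h2, (α _).dist_map, dist_comm]
    exact hy
  rw [← dist_eq_norm] at h1
  linarith [dist_triangle (α (h * g⁻¹) b) (α h y) b, not_le.1 hlt]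

theorem avg_near (χ : ContDiffBump b) (hd : ∀ g ≠ 1, 2 * χ.rOut ≤ ‖α g b - b‖) {y : E}
    (hy : y ∈ ball b χ.rIn) : avg α χ y = (y, (1 : ℝ)) := by
  have h1 : α 1 y = y := by
    rw [map_one]
    rfl
  rw [avg_eq χ hd (g := 1) (by rw [h1]; exact ball_subset_ball χ.rIn_lt_rOut.le hy), h1,
    χ.one_of_mem_closedBall (ball_subset_closedBall hy), one_smul]

theorem avg_sep (χ : ContDiffBump b) (hd : ∀ g ≠ 1, 2 * χ.rOut ≤ ‖α g b - b‖) {x y : E}
    (h : avg α χ y = (x, (1 : ℝ))) : ∃ g, α g y = x := by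
  obtain ⟨g, -, hg⟩ := Finset.exists_ne_zero_of_sum_ne_zero
    (show ∑ g, χ (α g y) • (α g y, (1 : ℝ)) ≠ 0 from fun e =>
      one_ne_zero (congrArg Prod.snd (h.symm.trans e)))
  have hy : α g y ∈ ball b χ.rOut := by
    by_contra hn
    exact hg (by rw [χ.zero_of_le_dist (not_lt.1 hn), zero_smul])
  rw [avg_eq χ hd hy] at h
  have h2 : χ (α g y) = 1 := (mul_one _).symm.trans (congrArg Prod.snd h)
  rw [h2, one_smul] at h
  exact ⟨g, congrArg Prod.fst h⟩

omit [FiniteDimensional ℝ E] in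
theorem exists_bump (α : G →* (E ≃ₗᵢ[ℝ] E)) (b : E) :
    ∃ χ : ContDiffBump b, (∀ g, α g b = b → g = 1) → ∀ g ≠ 1, 2 * χ.rOut ≤ ‖α g b - b‖ := by
  classical
  by_cases hf : ∀ g, α g b = b → g = 1
  · obtain ⟨g₀, h₀⟩ := Finite.exists_min fun g : G => if g = 1 then (1 : ℝ) else ‖α g b - b‖
    have hp : 0 < if g₀ = 1 then (1 : ℝ) else ‖α g₀ b - b‖ := by
      split_ifs with h
      · exact one_pos
      · exact norm_pos_iff.2 fun e => h (hf _ (sub_eq_zero.1 e))
    generalize (if g₀ = 1 then (1 : ℝ) else ‖α g₀ b - b‖) = d at h₀ hp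
    refine ⟨⟨d / 4, d / 2, by positivity, by linarith⟩, fun _ g hg => ?_⟩
    have := h₀ g
    rw [if_neg hg] at this
    show 2 * (d / 2) ≤ _
    linarith
  · exact ⟨default, fun h => (hf h).elim⟩

end Quo

open Quo

/-- QUOT -/
theorem stQuot : StQuot := by
  intro G _ _ E _ _ _ α S hS _ hf
  choose χ hχ using exists_bump α
  obtain ⟨T, hT, hc⟩ := hS.elim_nhds_subcover (fun b => ball b (χ b).rIn)
    fun b _ => ball_mem_nhds b (χ b).rIn_pos
  have hc' : ∀ x ∈ S, ∃ b : T, x ∈ ball b.1 (χ b.1).rIn := fun x hx => by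
    obtain ⟨b, hb, h⟩ := mem_iUnion₂.1 (hc hx)
    exact ⟨⟨b, hb⟩, h⟩
  have hd : ∀ b : T, ∀ g ≠ 1, 2 * (χ b.1).rOut ≤ ‖α g b.1 - b.1‖ := fun b =>
    hχ b.1 fun g => hf g b.1 (hT b.1 b.2)
  let e := toEuclidean (E := T → E × ℝ)
  let P₀ : E → T → E × ℝ := fun y b => avg α (χ b.1) y
  have hP : ContDiff ℝ ∞ fun y => e (P₀ y) :=
    e.contDiff.comp (contDiff_pi.2 fun b => avg_smooth α (χ b.1))
  refine ⟨_, inferInstance, inferInstance, inferInstance, fun y => e (P₀ y), hP,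
    fun g x => congrArg e (funext fun b => avg_inv α _ g x), fun x hx x' _ h => ?_,
    fun x hx u hu => ?_⟩
  · obtain ⟨b, hb⟩ := hc' x hx
    exact avg_sep _ (hd b) ((congrFun (e.injective h) b).symm.trans (avg_near _ (hd b) hb))
  · obtain ⟨b, hb⟩ := hc' x hx
    let L : EuclideanSpace ℝ (Fin (Module.finrank ℝ (T → E × ℝ))) →L[ℝ] E :=
      (ContinuousLinearMap.fst ℝ E ℝ).comp
        ((ContinuousLinearMap.proj (R := ℝ) (φ := fun _ : T => E × ℝ) b).comp
          e.symm.toContinuousLinearMap)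
    have h1 := L.hasFDerivAt.comp x (hP.differentiable (by simp) x).hasFDerivAt
    have h2 : (L ∘ fun y => e (P₀ y)) =ᶠ[𝓝 x] id := by
      filter_upwards [isOpen_ball.mem_nhds hb] with y hy
      show ((e.symm (e (P₀ y))) b).1 = y
      rw [e.symm_apply_apply]
      exact congrArg Prod.fst (avg_near _ (hd b) hy)
    have h3 := (h1.congr_of_eventuallyEq h2.symm).unique (hasFDerivAt_id x)
    have h4 := congrArg (fun A : E →L[ℝ] E => A u) h3
    simp only [ContinuousLinearMap.comp_apply, ContinuousLinearMap.id_apply] at h4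
    rw [← h4, hu, map_zero]

/-- COVER -/
theorem stCover (hI : StImg) : StCover := by
  intro G _ _ E _ _ _ α n Qt hQ ha hf
  obtain ⟨E', _, _, _, P, hP, hinv, hsep, hinj⟩ := stQuot G E α Qt hQ.compact ha hf
  obtain ⟨h1, h2, -⟩ := hI G E E' (fun g => α g) n Qt P hQ.sub hQ.compact hP
    (fun g => (α g).continuous) ha (fun g x _ => hinv g x) hsep fun x hx u _ => hinj x hx u
  have hc : IsCompact (P '' Qt) := hQ.compact.image hP.continuous
  obtain ⟨U, r, hr, -⟩ := exists_ret hQ.sub hQ.compact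
  obtain ⟨U', r', hr', -⟩ := exists_ret h1 hc
  exact ⟨E', inferInstance, inferInstance, inferInstance, P '' Qt, P,
    ⟨⟨U, r, hr⟩, hQ.compact, ⟨U', r', hr'⟩, hc, hP, fun b hb => mem_image_of_mem P hb,
      fun b hb u _ => hinj b hb u, h2, ha, fun g b _ => hinv g b⟩,
    ⟨h1, hc, hQ.conn.image P hP.continuous.continuousOn⟩, hsep⟩

end Vale.Agent.P220Z.Cn
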