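import Vale.Agent.P220Z.Cn.Defs
import Vale.Agent.P220.H64.LocInv

/-!
# P220: regular zero sets, products, the base of the construction
-/

open Set Filter Topology
open scoped ContDiff RealInnerProductSpace

namespace Vale.Agent.P220Z.Cn

open Vale.Agent.P220.R2.H57 Vale.Agent.P220

namespace Rg

variable {X : Type} [NormedAddCommGroup X] [NormedSpace ℝ X] [FiniteDimensional ℝ X]

/-- the inverse function theorem, with a smooth chart as output -/
theorem loc_chart {f : X → X} {U : Set X} (hU : IsOpen U) (hf : ContDiffOn ℝ ∞ f U) {x : X}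
    (hx : x ∈ U) (hinj : Function.Injective (fderiv ℝ f x)) :
    ∃ e : OpenPartialHomeomorph X X, x ∈ e.source ∧ e.source ⊆ U ∧ (∀ y, e y = f y) ∧
      ContDiffOn ℝ ∞ e e.source ∧ ContDiffOn ℝ ∞ e.symm e.target := by
  have : CompleteSpace X := FiniteDimensional.complete ℝ X
  have hat : ∀ y ∈ U, ContDiffAt ℝ ∞ f y := fun y hy => hf.contDiffAt (hU.mem_nhds hy)
  have hd : ∀ y ∈ U, ∀ h : (fderiv ℝ f y).det ≠ 0, HasFDerivAt f
      (((fderiv ℝ f y).toContinuousLinearEquivOfDetNeZero h : X ≃L[ℝ] X) : X →L[ℝ] X) y := by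
    intro y hy h
    rw [ContinuousLinearMap.coe_toContinuousLinearEquivOfDetNeZero]
    exact ((hat y hy).differentiableAt (by simp)).hasFDerivAt
  have hdet := H64.det_ne_zero_of_injective hinj
  set e := (hat x hx).toOpenPartialHomeomorph f (hd x hx hdet) (by simp) with he
  have hsrc : x ∈ e.source :=
    ContDiffAt.mem_toOpenPartialHomeomorph_source (hat x hx) (hd x hx hdet) (by simp)
  have hdc : ContinuousOn (fun y => (fderiv ℝ f y).det) U :=
    ContinuousLinearMap.continuous_det.comp_continuousOn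
      (hf.continuousOn_fderiv_of_isOpen hU (by simp))
  have hO : IsOpen (U ∩ (fun y => (fderiv ℝ f y).det) ⁻¹' {t | t ≠ 0}) :=
    hdc.isOpen_inter_preimage hU isOpen_ne
  refine ⟨e.restrOpen _ hO, ⟨hsrc, hx, hdet⟩, fun y hy => hy.2.1, fun _ => rfl,
    hf.mono fun y hy => hy.2.1, fun y hy => ?_⟩
  have h1 := (e.restrOpen _ hO).map_target hy
  have h2 : y ∈ e.target := hy.1
  exact (e.contDiffAt_symm h2 (hd _ h1.2.1 h1.2.2) (hat _ h1.2.1)).contDiffWithinAt

theorem deriv_mem {W : Submodule ℝ X} {g : ℝ → X} {v : X} (hg : HasDerivAt g v 0)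
    (hW : ∀ᶠ t in 𝓝 (0 : ℝ), g t ∈ W) : v ∈ W := by
  refine W.closed_of_finiteDimensional.mem_of_tendsto (hasDerivAt_iff_tendsto_slope.1 hg) ?_
  filter_upwards [nhdsWithin_le_nhds hW] with t ht
  exact W.smul_mem _ (W.sub_mem ht hW.self_of_nhds)

omit [FiniteDimensional ℝ X] in
theorem smooth_prod {Y Z : Type} [NormedAddCommGroup Y] [NormedSpace ℝ Y] [NormedAddCommGroup Z]
    [NormedSpace ℝ Z] (e : X ≃L[ℝ] Y × Z) {g : Y → Y} {s : Set Y} (hg : ContDiffOn ℝ ∞ g s) :
    ContDiffOn ℝ ∞ (fun y => e.symm (g (e y).1, (e y).2)) {y | (e y).1 ∈ s} :=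
  e.symm.contDiff.comp_contDiffOn ((hg.comp (contDiff_fst.comp e.contDiff).contDiffOn
    fun _ hy => hy).prodMk (contDiff_snd.comp e.contDiff).contDiffOn)

end Rg

open Rg

theorem stReg : StReg := by
  intro X _ _ _ V _ _ _ n S O Θ hS hO hΘ hsurj x ⟨hxS, hxO, hx0⟩
  obtain ⟨Φ, W, hx, c1, c2, hW, hmem⟩ := hS x hxS
  have d1 : HasFDerivAt Φ (fderiv ℝ Φ x) x :=
    ((c1.contDiffAt (Φ.open_source.mem_nhds hx)).differentiableAt (by simp)).hasFDerivAt
  have d2 : HasFDerivAt Φ.symm (fderiv ℝ Φ.symm (Φ x)) (Φ x) :=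
    ((c2.contDiffAt (Φ.open_target.mem_nhds (Φ.map_source hx))).differentiableAt
      (by simp)).hasFDerivAt
  have d3 : HasFDerivAt Θ (fderiv ℝ Θ x) x := (hΘ.differentiable (by simp) x).hasFDerivAt
  have hinv : ∀ u, fderiv ℝ Φ.symm (Φ x) (fderiv ℝ Φ x u) = u := fun u => by
    have h1 := (d2.comp x d1).unique ((hasFDerivAt_id x).congr_of_eventuallyEq
      (Φ.eventually_left_inverse hx))
    exact congrArg (fun L : X →L[ℝ] X => L u) h1
  set T : X →L[ℝ] V := (fderiv ℝ Θ x).comp (fderiv ℝ Φ.symm (Φ x)) with hT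
  have hTD : ∀ u, T (fderiv ℝ Φ x u) = fderiv ℝ Θ x u := fun u => by
    rw [hT, ContinuousLinearMap.comp_apply, hinv]
  have htan : ∀ u ∈ Tan S x, fderiv ℝ Φ x u ∈ W := by
    rintro u ⟨c, hc, hcS, h0, hu⟩
    have h1 : HasDerivAt c u 0 := hu ▸ (hc.differentiable (by simp) 0).hasDerivAt
    refine deriv_mem (g := fun t => Φ (c t)) ((h0.symm ▸ d1 :
      HasFDerivAt Φ (fderiv ℝ Φ x) (c 0)).comp_hasDerivAt 0 h1) ?_
    have h2 : ∀ᶠ t in 𝓝 (0 : ℝ), c t ∈ Φ.source :=
      hc.continuous.continuousAt.preimage_mem_nhds (h0.symm ▸ Φ.open_source.mem_nhds hx)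
    filter_upwards [h2] with t ht
    exact (hmem _ ht).1 (hcS t)
  set TW : W →ₗ[ℝ] V := (T : X →ₗ[ℝ] V).comp W.subtype with hTW
  have hr : LinearMap.range TW = ⊤ := LinearMap.range_eq_top.2 fun v => by
    obtain ⟨u, hu, h⟩ := hsurj x hxS hxO hx0 v
    exact ⟨⟨_, htan u hu⟩, (hTD u).trans h⟩
  obtain ⟨g, hg⟩ := TW.exists_rightInverse_of_surjective hr
  set A : V →L[ℝ] X := LinearMap.toContinuousLinearMap (W.subtype.comp g) with hA
  have hAW : ∀ v, A v ∈ W := fun v => (g v).2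
  have hTA : ∀ v, T (A v) = v := fun v => congrArg (fun L : V →ₗ[ℝ] V => L v) hg
  set f : X → X := fun y => Φ y - Φ x + A (Θ y - T (Φ y - Φ x)) with hf
  have hfs : ContDiffOn ℝ ∞ f (Φ.source ∩ O) :=
    ((c1.sub contDiffOn_const).add (A.contDiff.comp_contDiffOn (hΘ.contDiffOn.sub
      (T.contDiff.comp_contDiffOn (c1.sub contDiffOn_const))))).mono inter_subset_left
  have hfd : HasFDerivAt f (fderiv ℝ Φ x + A.comp (fderiv ℝ Θ x - T.comp (fderiv ℝ Φ x))) x :=
    (d1.sub_const _).add (A.hasFDerivAt.comp x (d3.sub (T.hasFDerivAt.comp x (d1.sub_const _))))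
  obtain ⟨e, e1, e2, e3, e4, e5⟩ := loc_chart (Φ.open_source.inter hO) hfs ⟨hx, hxO⟩ (by
    rw [hfd.fderiv]
    intro u u' h
    simp only [add_apply, ContinuousLinearMap.comp_apply,
      sub_apply, hTD, sub_self, map_zero, add_zero] at h
    rw [← hinv u, h, hinv])
  refine ⟨e, (LinearMap.ker TW).map W.subtype, e1, e4, e5, ?_, fun y hy => ?_⟩
  · have h1 := TW.finrank_range_add_finrank_ker
    rw [hr, finrank_top, hW] at h1
    rw [Submodule.finrank_map_subtype_eq]
    omega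
  · have h1 : T (f y) = Θ y := by
      simp only [hf, map_add, hTA]
      abel
    have h2 : f y ∈ W ↔ y ∈ S := by
      rw [hmem y (e2 hy).1, hf]
      simp only
      rw [W.add_mem_iff_left (hAW _), W.sub_mem_iff_left ((hmem x hx).1 hxS)]
    rw [e3]
    constructor
    · rintro ⟨hyS, -, hy0⟩
      exact ⟨⟨f y, h2.2 hyS⟩, h1.trans hy0, rfl⟩
    · rintro ⟨w, hw, hwy⟩
      have h3 : (w : X) = f y := hwy
      refine ⟨h2.1 (h3 ▸ w.2), (e2 hy).2, ?_⟩
      rw [← h1, ← h3]
      exact hw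

theorem stProd : StProd := by
  intro X _ _ _ Y _ _ _ Z _ _ _ e n S hS x hx
  obtain ⟨Φ, W, h1, c1, c2, hW, hmem⟩ := hS _ hx
  have hc : Continuous fun y => (e y).1 := continuous_fst.comp e.continuous
  let Ψ : OpenPartialHomeomorph X X :=
    { toFun := fun y => e.symm (Φ (e y).1, (e y).2)
      invFun := fun y => e.symm (Φ.symm (e y).1, (e y).2)
      source := {y | (e y).1 ∈ Φ.source}
      target := {y | (e y).1 ∈ Φ.target}
      map_source' := fun y hy => by simpa using Φ.map_source hy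
      map_target' := fun y hy => by simpa using Φ.map_target hy
      left_inv' := fun y hy => by simp [Φ.left_inv hy]
      right_inv' := fun y hy => by simp [Φ.right_inv hy]
      open_source := Φ.open_source.preimage hc
      open_target := Φ.open_target.preimage hc
      continuousOn_toFun := (smooth_prod e c1).continuousOn
      continuousOn_invFun := (smooth_prod e c2).continuousOn }
  let J : (W × Z) →ₗ[ℝ] X := (e.symm : Y × Z →ₗ[ℝ] X).comp (W.subtype.prodMap LinearMap.id)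
  have hJ : Function.Injective J :=
    e.symm.injective.comp (W.injective_subtype.prodMap Function.injective_id)
  refine ⟨Ψ, LinearMap.range J, h1, smooth_prod e c1, smooth_prod e c2, ?_, fun y hy => ?_⟩
  · rw [LinearMap.finrank_range_of_inj hJ, Module.finrank_prod, hW]
  · refine (hmem _ hy).trans ⟨fun h => ⟨(⟨_, h⟩, (e y).2), rfl⟩, ?_⟩
    rintro ⟨⟨w, z⟩, h⟩
    have h2 : ((w : Y), z) = (Φ (e y).1, (e y).2) := e.symm.injective h
    have h3 : (w : Y) = Φ (e y).1 := congrArg Prod.fst h2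
    exact h3 ▸ w.2

theorem stBase : StBase := by
  intro Eb _ _ _ U _ _ _ n k B hB hU
  let e : Bs Eb U ≃L[ℝ] Eb × U := WithLp.prodContinuousLinearEquiv 2 ℝ Eb U
  let σ : Bs Eb U →L[ℝ] U := (ContinuousLinearMap.snd ℝ Eb U).comp (e : Bs Eb U →L[ℝ] Eb × U)
  have himg : QtOf U B = e.symm '' (B ×ˢ Metric.sphere (0 : U) 1) := by
    ext q
    constructor
    · intro hq
      exact ⟨e q, ⟨hq.1, mem_sphere_zero_iff_norm.2 hq.2⟩, e.symm_apply_apply q⟩
    · rintro ⟨z, hz, rfl⟩
      exact ⟨hz.1, mem_sphere_zero_iff_norm.1 hz.2⟩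
  refine ⟨?_, ?_, ?_⟩
  · have h1 := stProd _ _ _ e n B hB.sub
    have h2 := stReg _ ℝ (n + (k + 1)) {q | (e q).1 ∈ B} univ (fun q => ‖σ q‖ ^ 2 - 1)
      (by rwa [Module.finrank_self, add_assoc, add_assoc, ← hU]) isOpen_univ
      (((contDiff_norm_sq ℝ).comp σ.contDiff).sub contDiff_const) fun q hq _ h0 v => by
        have hn : ‖σ q‖ ^ 2 = 1 := sub_eq_zero.1 h0
        refine ⟨e.symm (0, (v / 2) • σ q), ⟨fun t => q + t • e.symm (0, (v / 2) • σ q),
          by fun_prop, fun t => ?_, by simp, ?_⟩, ?_⟩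
        · simpa using hq
        · simpa using (((hasDerivAt_id (0 : ℝ)).smul_const
            (e.symm (0, (v / 2) • σ q))).const_add q).deriv
        · rw [(σ.hasFDerivAt.norm_sq.sub_const 1).fderiv]
          have h3 : σ (e.symm (0, (v / 2) • σ q)) = (v / 2) • σ q := by simp [σ]
          simp only [smul_apply, ContinuousLinearMap.comp_apply,
            innerSL_apply_apply, h3, real_inner_smul_right, real_inner_self_eq_norm_sq, hn]
          simp only [nsmul_eq_mul, Nat.cast_ofNat]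
          ring
    convert h2 using 1
    ext q
    refine and_congr Iff.rfl ?_
    rw [and_iff_right (mem_univ q), sub_eq_zero, pow_eq_one_iff_of_nonneg (norm_nonneg _) two_ne_zero]
    rfl
  · rw [himg]
    exact (hB.compact.prod (isCompact_sphere _ _)).image e.symm.continuous
  · rw [himg]
    refine (hB.conn.prod (isConnected_sphere ?_ _ zero_le_one)).image _
      e.symm.continuous.continuousOn
    rw [← Module.finrank_eq_rank, hU]
    norm_cast
    omega

end Vale.Agent.P220Z.Cn
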