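import Vale.Agent.P220Z.Cn.Defs
import Vale.Agent.P220Z.Per.Rigid

/-!
# P220, construction: the critical set in the window is a compact submanifold
-/

open Set Filter Topology
open scoped ContDiff RealInnerProductSpace

set_option linter.unusedSectionVars false

namespace Vale.Agent.P220Z.Cn

open Vale.Agent.P220.R2.H57 Vale.Agent.P220Z.Per

namespace Sg

variable {E : Type} [NormedAddCommGroup E] [InnerProductSpace ℝ E] [FiniteDimensional ℝ E]
  {V : Type} [NormedAddCommGroup V] [InnerProductSpace ℝ V] [FiniteDimensional ℝ V]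

theorem tan_prod {Qt : Set E} {b u : E} (hu : u ∈ Tan Qt b) (x w : V) :
    (u, w) ∈ Tan {y : E × V | y.1 ∈ Qt} (b, x) := by
  obtain ⟨c, hc, hS, h0, hd⟩ := hu
  refine ⟨fun t => (c t, x + t • w), hc.prodMk (contDiff_const.add (contDiff_id.smul contDiff_const)),
    fun t => hS t, by simp [h0], ?_⟩
  have h1 : HasDerivAt c u 0 := hd ▸ (hc.differentiable (by simp) 0).hasDerivAt
  exact (h1.prodMk (Aux.hasDerivAt_line x w 0)).deriv

theorem grad_zero {T : (E × V →L[ℝ] ℝ) →L[ℝ] V} (hT : ∀ l w, ⟪T l, w⟫ = l (0, w))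
    {F : E × V → ℝ} (hF : ContDiff ℝ ∞ F) (y : E × V) :
    T (fderiv ℝ F y) = 0 ↔ dV F y.1 y.2 = 0 := by
  constructor
  · intro h
    ext w
    rw [Aux.dV_apply hF, ← hT, h, inner_zero_left]
    rfl
  · intro h
    refine inner_self_eq_zero.1 ((hT _ _).trans ?_)
    have h1 := Aux.dV_apply hF y.1 y.2 (T (fderiv ℝ F y))
    rw [h] at h1
    exact h1.symm

theorem surj {Qt U : Set E} {r : E → E} (hr : IsRet Qt U r)
    {T : (E × V →L[ℝ] ℝ) →L[ℝ] V} (hT : ∀ l w, ⟪T l, w⟫ = l (0, w))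
    {F : E × V → ℝ} (hF : ContDiff ℝ ∞ F) {b : E} (hb : b ∈ Qt) {x : V} (hreg : Reg Qt F b x)
    (v : V) : ∃ u ∈ Tan {y : E × V | y.1 ∈ Qt} (b, x),
      fderiv ℝ (fun y => T (fderiv ℝ F y)) (b, x) u = v := by
  have hD : ContDiff ℝ ∞ (fderiv ℝ F) := hF.fderiv_right (m := ∞) (by simp)
  set H := fderiv ℝ (fderiv ℝ F) (b, x) with hH
  have hsym : ∀ y y', H y y' = H y' y := fun y y' =>
    (hF.contDiffAt.isSymmSndFDerivAt (by
      rw [minSmoothness_of_isRCLikeNormedField]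
      exact WithTop.coe_le_coe.2 (le_top : (2 : ℕ∞) ≤ ⊤))).eq y y'
  have hφ : HasFDerivAt (fun y => T (fderiv ℝ F y)) (T.comp H) (b, x) :=
    HasFDerivAt.comp (𝕜 := ℝ) (E := E × V) (F := E × V →L[ℝ] ℝ) (G := V) (b, x)
      T.hasFDerivAt (hD.differentiable (by simp) (b, x)).hasFDerivAt
  rw [hφ.fderiv]
  have htop : Submodule.map ((T.comp H : E × V →L[ℝ] V) : E × V →ₗ[ℝ] V)
      ((Tn r b).prod ⊤) = ⊤ := by
    rw [← Submodule.orthogonal_eq_bot_iff, eq_bot_iff]
    intro z hz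
    refine hreg z fun u hu w => ?_
    have h3 : ⟪T (H (u, w)), z⟫ = 0 :=
      (Submodule.mem_orthogonal _ _).1 hz _ ⟨(u, w), ⟨(hr.mem_Tan hb).1 hu, trivial⟩, rfl⟩
    have h4 := Rig.line_deriv hF b x z (u, w)
    rwa [← hH, hsym, ← hT, h3] at h4
  have hv : v ∈ Submodule.map ((T.comp H : E × V →L[ℝ] V) : E × V →ₗ[ℝ] V)
      ((Tn r b).prod ⊤) := by
    rw [htop]
    trivial
  obtain ⟨⟨u, w⟩, h1, h2⟩ := hv
  exact ⟨(u, w), tan_prod ((hr.mem_Tan hb).2 h1.1) x w, h2⟩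

end Sg

theorem stSig (hR : StReg) (hP : StProd) : StSig := by
  intro G _ E _ _ _ V _ _ _ α ρ n Qt a m F hQ hc hA hpre
  obtain ⟨U, r, hr, -⟩ := exists_ret hQ hc
  obtain ⟨T, hT⟩ := Rig.exists_grad (E := E) (V := V)
  have hF := hA.smooth
  have hD : ContDiff ℝ ∞ (fderiv ℝ F) := hF.fderiv_right (m := ∞) (by simp)
  have hΘ : ContDiff ℝ ∞ fun y => T (fderiv ℝ F y) :=
    ContDiff.continuousLinearMap_comp (𝕜 := ℝ) (E := E × V) (F := E × V →L[ℝ] ℝ) (G := V) T hD
  constructor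
  · have hS : IsSubmanifold (n + Module.finrank ℝ V) {y : E × V | y.1 ∈ Qt} :=
      hP (E × V) E V (ContinuousLinearEquiv.refl ℝ (E × V)) n Qt hQ
    have hO : IsOpen {y : E × V | |F y| < a} := isOpen_lt hF.continuous.abs continuous_const
    have h1 := hR (E × V) V n _ _ _ hS hO hΘ fun y hy hy1 hy2 v =>
      Sg.surj hr hT hF hy (hpre.reg y.1 hy y.2 ((Sg.grad_zero hT hF y).1 hy2) hy1) v
    have h2 : Sig Qt a F = {x | x ∈ {y : E × V | y.1 ∈ Qt} ∧ x ∈ {y : E × V | |F y| < a} ∧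
        T (fderiv ℝ F x) = 0} := by
      ext y
      simp only [Sig, mem_ofPred_eq, Sg.grad_zero hT hF]
      tauto
    rw [h2]
    exact h1
  · obtain ⟨c, hc0, R, hfar⟩ := hA.far
    have h2 : Sig Qt a F = (Qt ×ˢ Metric.closedBall (0 : V) R) ∩
        ({y | T (fderiv ℝ F y) = 0} ∩ {y | |F y| ≤ a - 1}) := by
      ext y
      simp only [Sig, mem_ofPred_eq, Sg.grad_zero hT hF, mem_inter_iff, mem_prod,
        mem_closedBall_zero_iff]
      constructor
      · rintro ⟨h1, h2, h3⟩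
        refine ⟨⟨h1, ?_⟩, h2, ?_⟩
        · by_contra h4
          have h5 := hfar y.1 h1 y.2 (not_le.1 h4).le
          rw [h2, norm_zero] at h5
          exact absurd h5 (not_le.2 hc0)
        · rcases hA.gap y.1 h1 y.2 h2 with h4 | h4
          · exact h4
          · have h5 : |F (y.1, y.2)| < a := h3
            linarith
      · rintro ⟨⟨h1, -⟩, h2, h3⟩
        exact ⟨h1, h2, by linarith⟩
    rw [h2]
    exact (hc.prod (isCompact_closedBall _ _)).inter_right
      ((isClosed_eq hΘ.continuous continuous_const).inter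
        (isClosed_le hF.continuous.abs continuous_const))

end Vale.Agent.P220Z.Cn
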