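import Vale.Agent.P220Z.Cn.FamD
import Vale.Agent.P220Z.Cn.FamE
import Vale.Agent.P220Z.Cn.Img
import Vale.Agent.P220Z.Cn.Quot
import Vale.Agent.P220Z.Cn.Reg
import Vale.Agent.P220Z.Cn.Sig
import Vale.Agent.P220Z.Cn.Lag

/-!
# P220, construction: all statements
-/

namespace Vale.Agent.P220Z.Cn

theorem stFam : Top.StFam :=
  Fm.stFam_of fun _ _ _ _ _ _ _ _ _ _ _ _ _ _ _ _ h g hB _ hU hb => g.conn h hB hU hb

theorem sig : StSig := stSig stReg stProd

theorem lag : StLag := stLag stImg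

theorem cover : StCover := stCover stImg

end Vale.Agent.P220Z.Cn
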