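import Vale.Agent.P220Z.Cn.Defs
import Vale.Agent.P220Z.Per.Stp

/-!
# P220, construction: the hypersurfaces `e^(K (φ + 4 d)) dφ = θ` and their chords
-/

open Set Filter Topology
open scoped ContDiff RealInnerProductSpace

set_option linter.unusedSectionVars false

namespace Vale.Agent.P220Z.Cn.Fm

open Vale.Agent.P220.R2.H57 Vale.Agent.P220Z.Per

variable {Eb : Type} [NormedAddCommGroup Eb] [InnerProductSpace ℝ Eb] [FiniteDimensional ℝ Eb]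
  {U : Type} [NormedAddCommGroup U] [InnerProductSpace ℝ U] [FiniteDimensional ℝ U]

/-- the hypotheses on a family that is `‖x‖ ^ 2` at infinity -/
structure Core (B : Set Eb) (s : Eb → ℝ) (φ : Eb × U → ℝ) (R : ℝ) : Prop where
  cpt : IsCompact B
  ret : ∃ O r, IsRet B O r
  ss : ContDiff ℝ ∞ s
  sφ : ContDiff ℝ ∞ φ
  one : 1 ≤ R
  far : ∀ b x, R ≤ ‖x‖ → φ (b, x) = ‖x‖ ^ 2
  reg : ∀ b ∈ B, ∀ x, φ (b, x) = 0 → dV φ b x ≠ 0
  chord : ∀ b ∈ B, (∀ u ∈ Tan B b, fderiv ℝ s b u = 0) → ∀ θ x : U, ∀ t : ℝ, ‖θ‖ = 1 →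
    φ (b, x) = 0 → φ (b, x + t • θ) = 0 → (∀ w, dV φ b x w = ‖dV φ b x‖ * ⟪θ, w⟫) →
    (∀ w, dV φ b (x + t • θ) w = ‖dV φ b (x + t • θ)‖ * ⟪θ, w⟫) → t = 0

/-- the second derivative along the fibre -/
noncomputable def hs (φ : Eb × U → ℝ) (b : Eb) (x v : U) : ℝ :=
  fderiv ℝ (fderiv ℝ φ) (b, x) (0, v) (0, v)

variable {φ : Eb × U → ℝ} {B : Set Eb} {s : Eb → ℝ} {R : ℝ}

theorem dV_eq (hφ : ContDiff ℝ ∞ φ) (b : Eb) (x : U) :
    dV φ b x = (fderiv ℝ φ (b, x)).comp (ContinuousLinearMap.inr ℝ Eb U) :=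
  ContinuousLinearMap.ext fun w => Aux.dV_apply hφ b x w

theorem cont_dV (hφ : ContDiff ℝ ∞ φ) : Continuous fun y : Eb × U => dV φ y.1 y.2 := by
  simp only [dV_eq hφ]
  exact (hφ.continuous_fderiv (by simp)).clm_comp continuous_const

theorem cont_hs (hφ : ContDiff ℝ ∞ φ) :
    Continuous fun y : (Eb × U) × U => hs φ y.1.1 y.1.2 y.2 := by
  have hD : ContDiff ℝ ∞ (fderiv ℝ φ) := hφ.fderiv_right (m := ∞) (by simp)
  have h1 : Continuous fun y : (Eb × U) × U => fderiv ℝ (fderiv ℝ φ) y.1 :=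
    (hD.continuous_fderiv (by simp)).comp continuous_fst
  have h2 : Continuous fun y : (Eb × U) × U => ((0 : Eb), y.2) :=
    continuous_const.prodMk continuous_snd
  exact (h1.clm_apply h2).clm_apply h2

theorem line0 (b : Eb) (x v : U) (t : ℝ) :
    HasDerivAt (fun t : ℝ => (b, x + t • v)) ((0 : Eb), v) t :=
  (hasDerivAt_const _ b).prodMk (Aux.hasDerivAt_line x v t)

theorem line1 (hφ : ContDiff ℝ ∞ φ) (b : Eb) (x v : U) (t : ℝ) :
    HasDerivAt (fun t : ℝ => φ (b, x + t • v)) (dV φ b (x + t • v) v) t := by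
  rw [Aux.dV_apply hφ]
  exact (hφ.differentiable (by simp) _).hasFDerivAt.comp_hasDerivAt t (line0 b x v t)

theorem line2 (hφ : ContDiff ℝ ∞ φ) (b : Eb) (x v : U) (t : ℝ) :
    HasDerivAt (fun t : ℝ => dV φ b (x + t • v) v) (hs φ b (x + t • v) v) t := by
  have hD : ContDiff ℝ ∞ (fderiv ℝ φ) := hφ.fderiv_right (m := ∞) (by simp)
  simp only [Aux.dV_apply hφ]
  exact (ContinuousLinearMap.apply ℝ ℝ ((0 : Eb), v)).hasFDerivAt.comp_hasDerivAt t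
    ((hD.differentiable (by simp) _).hasFDerivAt.comp_hasDerivAt t (line0 b x v t))

theorem line3 (hφ : ContDiff ℝ ∞ φ) (K e : ℝ) (b : Eb) (x v : U) (t : ℝ) :
    HasDerivAt (fun t : ℝ => Real.exp (K * (φ (b, x + t • v) + e)) * dV φ b (x + t • v) v)
      (Real.exp (K * (φ (b, x + t • v) + e)) *
        (K * dV φ b (x + t • v) v ^ 2 + hs φ b (x + t • v) v)) t := by
  have h1 := ((((line1 hφ b x v t).add_const e).const_mul K).exp).mul (line2 hφ b x v t)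
  refine h1.congr_deriv ?_
  ring

theorem Core.lt (h : Core B s φ R) {b : Eb} {x : U} (hx : φ (b, x) < 1) : ‖x‖ < R := by
  by_contra hc
  have h1 := not_lt.1 hc
  rw [h.far b x h1] at hx
  nlinarith [h.one]

theorem Core.consts (h : Core B s φ R) : ∃ c > 0, ∃ ε > 0, ∃ M > 0, ε < 1 ∧
    (∀ b ∈ B, ∀ x, |φ (b, x)| ≤ ε → c ≤ ‖dV φ b x‖) ∧
    (∀ b ∈ B, ∀ x, ‖x‖ ≤ R + 1 → ‖dV φ b x‖ ≤ M) ∧
    ∀ b ∈ B, ∀ x θ : U, ‖x‖ ≤ R + 1 → ‖θ‖ = 1 → |hs φ b x θ| ≤ M := by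
  have hK : IsCompact (B ×ˢ Metric.closedBall (0 : U) (R + 1)) :=
    h.cpt.prod (isCompact_closedBall _ _)
  have hc : Continuous fun y : Eb × U => max |φ y| ‖dV φ y.1 y.2‖ :=
    h.sφ.continuous.abs.max (cont_dV h.sφ).norm
  obtain ⟨m, hm, hm'⟩ := hK.exists_forall_le' hc.continuousOn (a := 0) (by
    intro y hy
    by_cases h0 : φ y = 0
    · exact lt_max_of_lt_right (norm_pos_iff.2 (h.reg y.1 hy.1 y.2 h0))
    · exact lt_max_of_lt_left (abs_pos.2 h0))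
  obtain ⟨M₁, hM₁⟩ := hK.exists_bound_of_continuousOn (cont_dV h.sφ).continuousOn
  obtain ⟨M₂, hM₂⟩ := (hK.prod (isCompact_sphere (0 : U) 1)).exists_bound_of_continuousOn
    (cont_hs h.sφ).continuousOn
  refine ⟨m, hm, min (m / 2) (1 / 2), by positivity, max (max M₁ M₂) 1, by positivity,
    (min_le_right _ _).trans_lt (by norm_num), ?_, ?_, ?_⟩
  · intro b hb x hx
    have h1 : |φ (b, x)| ≤ m / 2 := hx.trans (min_le_left _ _)
    have h2 : φ (b, x) < 1 := by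
      have := (abs_le.1 (hx.trans (min_le_right _ _))).2
      linarith
    have h3 := hm' (b, x) ⟨hb, by
      rw [mem_closedBall_zero_iff]
      linarith [h.lt h2]⟩
    rcases le_max_iff.1 h3 with h4 | h4
    · exact absurd (h4.trans h1) (by linarith)
    · exact h4
  · intro b hb x hx
    exact (hM₁ (b, x) ⟨hb, mem_closedBall_zero_iff.2 hx⟩).trans
      ((le_max_left _ _).trans (le_max_left _ _))
  · intro b hb x θ hx hθ
    exact (hM₂ ((b, x), θ) ⟨⟨hb, mem_closedBall_zero_iff.2 hx⟩, by simpa using hθ⟩).trans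
      ((le_max_right _ _).trans (le_max_left _ _))

/-- the critical set of `s` on `B` is closed -/
theorem crit_iff {O : Set Eb} {r : Eb → Eb} (hr : IsRet B O r) {b : Eb} (hb : b ∈ B) :
    (∀ u ∈ Tan B b, fderiv ℝ s b u = 0) ↔ (fderiv ℝ s b).comp (fderiv ℝ r b) = 0 := by
  constructor
  · intro h
    ext u
    exact h _ ((hr.mem_Tan hb).2 (hr.fderiv_mem hb u))
  · intro h u hu
    have h1 : fderiv ℝ r b u = u := (hr.mem_Tan hb).1 hu
    rw [← h1]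
    exact congrArg (fun C => C u) h

/-- no long chords in a thin collar over the critical points of `s` -/
theorem Core.thin (h : Core B s φ R) {δ : ℝ} (hδ : 0 < δ) : ∃ ε > 0, ∀ b ∈ B,
    (∀ u ∈ Tan B b, fderiv ℝ s b u = 0) → ∀ θ x : U, ∀ t : ℝ, ‖θ‖ = 1 → ‖x‖ ≤ R →
    ‖x + t • θ‖ ≤ R → δ ≤ |t| → (∀ w, dV φ b x w = ‖dV φ b x‖ * ⟪θ, w⟫) →
    (∀ w, dV φ b (x + t • θ) w = ‖dV φ b (x + t • θ)‖ * ⟪θ, w⟫) →
    ε ≤ max |φ (b, x)| |φ (b, x + t • θ)| := by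
  obtain ⟨O, r, hr⟩ := h.ret
  have hK : IsCompact ((B ×ˢ Metric.closedBall (0 : U) R) ×ˢ
      (Metric.sphere (0 : U) 1 ×ˢ Icc (-(2 * R)) (2 * R))) :=
    (h.cpt.prod (isCompact_closedBall _ _)).prod ((isCompact_sphere _ _).prod isCompact_Icc)
  have c1 : Continuous fun z : (Eb × U) × (U × ℝ) => (z.1.1, z.1.2 + z.2.2 • z.2.1) := by fun_prop
  have d0 : Continuous fun z : (Eb × U) × (U × ℝ) => dV φ z.1.1 z.1.2 :=
    (cont_dV h.sφ).comp continuous_fst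
  have d1 : Continuous fun z : (Eb × U) × (U × ℝ) => dV φ z.1.1 (z.1.2 + z.2.2 • z.2.1) :=
    (cont_dV h.sφ).comp c1
  have hcl : IsClosed {z : (Eb × U) × (U × ℝ) |
      (fderiv ℝ s z.1.1).comp (fderiv ℝ r z.1.1) = 0 ∧ δ ≤ |z.2.2| ∧
      (∀ w, dV φ z.1.1 z.1.2 w = ‖dV φ z.1.1 z.1.2‖ * ⟪z.2.1, w⟫) ∧
      ∀ w, dV φ z.1.1 (z.1.2 + z.2.2 • z.2.1) w =
        ‖dV φ z.1.1 (z.1.2 + z.2.2 • z.2.1)‖ * ⟪z.2.1, w⟫} := by
    have hb : Continuous fun z : (Eb × U) × (U × ℝ) => z.1.1 := by fun_prop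
    have hθ : Continuous fun z : (Eb × U) × (U × ℝ) => z.2.1 := by fun_prop
    refine (isClosed_eq (((h.ss.continuous_fderiv (by simp)).comp hb).clm_comp
      ((hr.smooth.continuous_fderiv (by simp)).comp hb)) continuous_const).inter
      ((isClosed_le continuous_const (continuous_snd.comp continuous_snd).abs).inter
        (IsClosed.inter ?_ ?_))
    · change IsClosed {z : (Eb × U) × (U × ℝ) |
        ∀ w, dV φ z.1.1 z.1.2 w = ‖dV φ z.1.1 z.1.2‖ * ⟪z.2.1, w⟫}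
      rw [ofPred_forall]
      exact isClosed_iInter fun w => isClosed_eq (d0.clm_apply continuous_const)
        (d0.norm.mul (hθ.inner continuous_const))
    · change IsClosed {z : (Eb × U) × (U × ℝ) | ∀ w, dV φ z.1.1 (z.1.2 + z.2.2 • z.2.1) w =
        ‖dV φ z.1.1 (z.1.2 + z.2.2 • z.2.1)‖ * ⟪z.2.1, w⟫}
      rw [ofPred_forall]
      exact isClosed_iInter fun w => isClosed_eq (d1.clm_apply continuous_const)
        (d1.norm.mul (hθ.inner continuous_const))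
  have hf : Continuous fun z : (Eb × U) × (U × ℝ) =>
      max |φ z.1| |φ (z.1.1, z.1.2 + z.2.2 • z.2.1)| :=
    (h.sφ.continuous.comp continuous_fst).abs.max (h.sφ.continuous.comp c1).abs
  obtain ⟨ε, hε, hε'⟩ := (hK.inter_right hcl).exists_forall_le' hf.continuousOn (a := 0) (by
    rintro ⟨⟨b, x⟩, θ, t⟩ ⟨⟨⟨hb, -⟩, hθ, -⟩, h1, h2, h3, h4⟩
    by_contra hc
    have h5 := not_lt.1 hc
    have h6 : φ (b, x) = 0 := abs_eq_zero.1 (le_antisymm ((le_max_left _ _).trans h5) (abs_nonneg _))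
    have h7 : φ (b, x + t • θ) = 0 :=
      abs_eq_zero.1 (le_antisymm ((le_max_right _ _).trans h5) (abs_nonneg _))
    have h8 : t = 0 := h.chord b hb ((crit_iff hr hb).2 h1) θ x t (by simpa using hθ) h6 h7 h3 h4
    rw [h8, abs_zero] at h2
    linarith)
  refine ⟨ε, hε, fun b hb hcr θ x t hθ hx hx' ht h3 h4 => ?_⟩
  refine hε' ((b, x), θ, t) ⟨⟨⟨hb, mem_closedBall_zero_iff.2 hx⟩, by simpa using hθ, ?_⟩,
    (crit_iff hr hb).1 hcr, ht, h3, h4⟩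
  have h9 : ‖t • θ‖ ≤ 2 * R := by
    have : t • θ = (x + t • θ) - x := by abel
    rw [this]
    linarith [norm_sub_le (x + t • θ) x]
  rw [norm_smul, hθ, mul_one, Real.norm_eq_abs] at h9
  exact abs_le.1 h9

/-- the equation of the critical points -/
def Cr (φ : Eb × U → ℝ) (K d : ℝ) (b : Eb) (θ x : U) : Prop :=
  φ (b, x) ≤ -(3 * d) ∧ ∀ w, Real.exp (K * (φ (b, x) + 4 * d)) * dV φ b x w = ⟪θ, w⟫

/-- the unscaled family -/
noncomputable def fp (φ : Eb × U → ℝ) (K d : ℝ) (b : Eb) (θ x : U) : ℝ :=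
  Real.exp (K * (φ (b, x) + 4 * d)) / K - ⟪θ, x⟫

theorem Cr.norm {K d : ℝ} {b : Eb} {θ x : U} (h : Cr φ K d b θ x) (hθ : ‖θ‖ = 1) :
    Real.exp (K * (φ (b, x) + 4 * d)) * ‖dV φ b x‖ = 1 := by
  have h1 : Real.exp (K * (φ (b, x) + 4 * d)) • dV φ b x = innerSL ℝ θ := by
    ext w
    exact h.2 w
  have h2 : ‖Real.exp (K * (φ (b, x) + 4 * d)) • dV φ b x‖ = ‖innerSL ℝ θ‖ := by rw [h1]
  rwa [norm_smul, innerSL_apply_norm, hθ, Real.norm_eq_abs, abs_of_pos (Real.exp_pos _)] at h2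

theorem Cr.dir {K d : ℝ} {b : Eb} {θ x : U} (h : Cr φ K d b θ x) (hθ : ‖θ‖ = 1) (w : U) :
    dV φ b x w = ‖dV φ b x‖ * ⟪θ, w⟫ := by
  rw [← h.2 w, ← mul_assoc, mul_comm ‖_‖, h.norm hθ, one_mul]

/-- the choice of the constants -/
structure Good (B : Set Eb) (s : Eb → ℝ) (φ : Eb × U → ℝ) (K d c δ : ℝ) : Prop where
  hd : 0 < d
  hK : 0 < K
  hc : 0 < c
  hδ : 0 < δ
  d1 : 5 * d < 1
  low : ∀ b ∈ B, ∀ x, |φ (b, x)| ≤ 5 * d → c ≤ ‖dV φ b x‖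
  big : 1 < Real.exp (K * d) * c
  cvx : ∀ b ∈ B, ∀ θ x, ‖θ‖ = 1 → Cr φ K d b θ x → 0 < K * dV φ b x θ ^ 2 + hs φ b x θ
  chord : ∀ b ∈ B, ∀ θ x, ∀ t : ℝ, ‖θ‖ = 1 → Cr φ K d b θ x → Cr φ K d b θ (x + t • θ) → t ≠ 0 →
    δ ≤ |t| ∧ fp φ K d b θ (x + t • θ) ≠ fp φ K d b θ x ∧ ¬ ∀ u ∈ Tan B b, fderiv ℝ s b u = 0

/-- inequalities between the constants -/
structure Cst (B : Set Eb) (φ : Eb × U → ℝ) (R K d c δ M : ℝ) : Prop where
  hd : 0 < d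
  hK : 0 < K
  hc : 0 < c
  hδ : 0 < δ
  hM : 0 < M
  δ1 : δ ≤ 1
  δ2 : δ * (2 * M) ≤ c
  h1 : ∀ b ∈ B, ∀ x, |φ (b, x)| ≤ 5 * d → c ≤ ‖dV φ b x‖
  h2 : ∀ b ∈ B, ∀ x, ‖x‖ ≤ R + 1 → ‖dV φ b x‖ ≤ M
  h3 : ∀ b ∈ B, ∀ x θ : U, ‖x‖ ≤ R + 1 → ‖θ‖ = 1 → |hs φ b x θ| ≤ M
  e1 : M < Real.exp (K * d)
  e2 : M < K * (c / 2) ^ 2
  e3 : 1 < K * (c * δ)

section Cst

variable {K d c δ M : ℝ} {b : Eb} {θ x : U}

theorem Cst.loc (h : Core B s φ R) (k : Cst B φ R K d c δ M) (hb : b ∈ B) (hθ : ‖θ‖ = 1)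
    (hx : Cr φ K d b θ x) : ‖x‖ < R ∧ |φ (b, x)| ≤ 5 * d := by
  have a1 : ‖x‖ < R := h.lt (by linarith [hx.1, k.hd])
  refine ⟨a1, abs_le.2 ⟨?_, by linarith [hx.1, k.hd]⟩⟩
  by_contra a2
  have a3 : K * (φ (b, x) + 4 * d) + K * d ≤ 0 := by nlinarith [not_le.1 a2, k.hK]
  have a4 := hx.norm hθ
  have a5 := k.h2 b hb x (by linarith)
  have a6 : Real.exp (K * (φ (b, x) + 4 * d)) * Real.exp (K * d) ≤ 1 := by
    rw [← Real.exp_add]
    exact Real.exp_le_one_iff.2 a3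
  have a7 := Real.exp_pos (K * (φ (b, x) + 4 * d))
  have a8 := mul_lt_mul_of_pos_left (a5.trans_lt k.e1) a7
  linarith

theorem Cst.lowc (h : Core B s φ R) (k : Cst B φ R K d c δ M) (hb : b ∈ B) (hθ : ‖θ‖ = 1)
    (hx : Cr φ K d b θ x) : c ≤ dV φ b x θ := by
  rw [hx.dir hθ θ, real_inner_self_eq_norm_sq, hθ, one_pow, mul_one]
  exact k.h1 b hb x (k.loc h hb hθ hx).2

theorem Cst.pos (k : Cst B φ R K d c δ M) (hb : b ∈ B) (hθ : ‖θ‖ = 1) (hx : ‖x‖ ≤ R + 1)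
    (h1 : c / 2 ≤ dV φ b x θ) : 0 < K * dV φ b x θ ^ 2 + hs φ b x θ := by
  have a9 := (abs_le.1 (k.h3 b hb x θ hx hθ)).1
  have a10 : (c / 2) ^ 2 ≤ dV φ b x θ ^ 2 := pow_le_pow_left₀ (by linarith [k.hc]) h1 2
  have a11 := mul_le_mul_of_nonneg_left a10 k.hK.le
  linarith [k.e2]

theorem Cst.short (h : Core B s φ R) (k : Cst B φ R K d c δ M) (hb : b ∈ B) (hθ : ‖θ‖ = 1)
    {t : ℝ} (hx : Cr φ K d b θ x) (hx' : Cr φ K d b θ (x + t • θ)) (ht : 0 < t) : δ ≤ t := by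
  by_contra a0
  have a1 : t < δ := not_le.1 a0
  have a4 : ∀ σ ∈ Icc 0 t, ‖x + σ • θ‖ ≤ R + 1 := by
    intro σ hσ
    have := norm_add_le x (σ • θ)
    rw [norm_smul, hθ, mul_one, Real.norm_eq_abs, abs_of_nonneg hσ.1] at this
    linarith [(k.loc h hb hθ hx).1, hσ.2, k.δ1]
  have a5 := norm_image_sub_le_of_norm_deriv_le_segment' (a := 0) (b := t) (C := M)
    (f := fun σ : ℝ => dV φ b (x + σ • θ) θ) (f' := fun σ => hs φ b (x + σ • θ) θ)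
    (fun σ _ => (line2 h.sφ b x θ σ).hasDerivWithinAt)
    (fun σ hσ => k.h3 b hb _ θ (a4 σ (Ico_subset_Icc_self hσ)) hθ)
  obtain ⟨σ, hσ, a6⟩ := exists_hasDerivAt_eq_zero ht
    (f := fun σ : ℝ => Real.exp (K * (φ (b, x + σ • θ) + 4 * d)) * dV φ b (x + σ • θ) θ)
    (fun σ _ => (line3 h.sφ K (4 * d) b x θ σ).continuousAt.continuousWithinAt)
    (by
      simp only [zero_smul, add_zero]
      rw [hx.2 θ, hx'.2 θ])
    (fun σ _ => line3 h.sφ K (4 * d) b x θ σ)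
  have a7 := a5 σ (Ioo_subset_Icc_self hσ)
  simp only [zero_smul, add_zero, sub_zero, Real.norm_eq_abs] at a7
  have a8 : c / 2 ≤ dV φ b (x + σ • θ) θ := by
    have b1 := (abs_le.1 a7).1
    have b2 := k.lowc h hb hθ hx
    have b3 := mul_le_mul_of_nonneg_left (hσ.2.trans a1).le k.hM.le
    linarith [k.δ2]
  exact absurd a6 (mul_pos (Real.exp_pos _)
    (k.pos hb hθ (a4 σ (Ioo_subset_Icc_self hσ)) a8)).ne'

theorem Cst.small (h : Core B s φ R) (k : Cst B φ R K d c δ M) (hb : b ∈ B) (hθ : ‖θ‖ = 1)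
    (hx : Cr φ K d b θ x) : Real.exp (K * (φ (b, x) + 4 * d)) / K < δ := by
  rw [div_lt_iff₀ k.hK]
  have a1 := hx.norm hθ
  have a2 := k.h1 b hb x (k.loc h hb hθ hx).2
  have a3 := Real.exp_pos (K * (φ (b, x) + 4 * d))
  have a4 := mul_le_mul_of_nonneg_left a2 a3.le
  by_contra a5
  have a6 := mul_le_mul_of_nonneg_right (not_lt.1 a5) k.hc.le
  have a7 := k.e3
  nlinarith

theorem Cst.long (h : Core B s φ R) (k : Cst B φ R K d c δ M) (hb : b ∈ B) (hθ : ‖θ‖ = 1)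
    {t : ℝ} (hx : Cr φ K d b θ x) (hx' : Cr φ K d b θ (x + t • θ)) (ht : t ≠ 0) :
    δ ≤ |t| ∧ fp φ K d b θ (x + t • θ) ≠ fp φ K d b θ x := by
  have a1 : δ ≤ |t| := by
    rcases lt_or_gt_of_ne ht with a | a
    · rw [abs_of_neg a]
      refine k.short h hb hθ hx' ?_ (by linarith)
      rw [neg_smul, add_neg_cancel_right]
      exact hx
    · rw [abs_of_pos a]
      exact k.short h hb hθ hx hx' a
  refine ⟨a1, fun a2 => ?_⟩
  simp only [fp, inner_add_right, real_inner_smul_right, real_inner_self_eq_norm_sq, hθ] at a2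
  have a3 := k.small h hb hθ hx
  have a4 := k.small h hb hθ hx'
  have a5 : 0 < Real.exp (K * (φ (b, x) + 4 * d)) / K := div_pos (Real.exp_pos _) k.hK
  have a6 : 0 < Real.exp (K * (φ (b, x + t • θ) + 4 * d)) / K := div_pos (Real.exp_pos _) k.hK
  have a7 : |t| < δ := abs_lt.2 ⟨by linarith, by linarith⟩
  linarith

end Cst

theorem exists_K {M c d δ : ℝ} (hM : 0 < M) (hc : 0 < c) (hd : 0 < d) (hδ : 0 < δ) :
    ∃ K > 0, M + 1 / c < Real.exp (K * d) ∧ M < K * (c / 2) ^ 2 ∧ 1 < K * (c * δ) := by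
  have k1 : 0 < (M + 1 / c) / d := by positivity
  have k2 : 0 < M / (c / 2) ^ 2 := by positivity
  have k3 : 0 < 1 / (c * δ) := by positivity
  refine ⟨(M + 1 / c) / d + M / (c / 2) ^ 2 + 1 / (c * δ), by positivity, ?_, ?_, ?_⟩
  · have a2 := (div_le_iff₀ hd).1 (show (M + 1 / c) / d ≤
      (M + 1 / c) / d + M / (c / 2) ^ 2 + 1 / (c * δ) by linarith)
    linarith [Real.add_one_le_exp (((M + 1 / c) / d + M / (c / 2) ^ 2 + 1 / (c * δ)) * d)]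
  · exact (div_lt_iff₀ (by positivity)).1 (by linarith)
  · exact (div_lt_iff₀ (by positivity)).1 (by linarith)

theorem Core.good (h : Core B s φ R) : ∃ K d c δ, Good B s φ K d c δ := by
  obtain ⟨c, hc, ε, hε, M, hM, hε1, h1, h2, h3⟩ := h.consts
  obtain ⟨δ, hδ, δ1, δ2⟩ : ∃ δ > 0, δ ≤ 1 ∧ δ * (2 * M) ≤ c :=
    ⟨min 1 (c / (2 * M)), by positivity, min_le_left _ _,
      (le_div_iff₀ (by positivity)).1 (min_le_right _ _)⟩
  obtain ⟨ε', hε', h4⟩ := h.thin hδ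
  obtain ⟨d, hd, hd1, hd2⟩ : ∃ d > 0, 6 * d ≤ ε ∧ 6 * d ≤ ε' :=
    ⟨min ε ε' / 6, by positivity, by linarith [min_le_left ε ε'], by linarith [min_le_right ε ε']⟩
  obtain ⟨K, hK, e1, e2, e3⟩ := exists_K hM hc hd hδ
  have hc' : 0 < 1 / c := by positivity
  have k : Cst B φ R K d c δ M := ⟨hd, hK, hc, hδ, hM, δ1, δ2,
    fun b hb x hx => h1 b hb x (by linarith), h2, h3, by linarith, e2, e3⟩
  refine ⟨K, d, c, δ, hd, hK, hc, hδ, by linarith, k.h1, (div_lt_iff₀ hc).1 (by linarith), ?_, ?_⟩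
  · intro b hb θ x hθ hx
    exact k.pos hb hθ (by linarith [(k.loc h hb hθ hx).1]) (by linarith [k.lowc h hb hθ hx])
  · intro b hb θ x t hθ hx hx' ht
    obtain ⟨a1, a2⟩ := k.long h hb hθ hx hx' ht
    refine ⟨a1, a2, fun hcr => ?_⟩
    have a3 := h4 b hb hcr θ x t hθ (k.loc h hb hθ hx).1.le (k.loc h hb hθ hx').1.le a1
      (hx.dir hθ) (hx'.dir hθ)
    have a4 := max_le (k.loc h hb hθ hx).2 (k.loc h hb hθ hx').2
    linarith

end Vale.Agent.P220Z.Cn.Fm
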