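import Vale.Agent.P220Z.Cn.FamA

/-!
# P220, construction: the scaled family has no double points
-/

open Set Filter Topology
open scoped ContDiff RealInnerProductSpace

set_option linter.unusedSectionVars false

namespace Vale.Agent.P220Z.Cn.Fm

open Vale.Agent.P220.R2.H57 Vale.Agent.P220Z.Per

variable {Eb : Type} [NormedAddCommGroup Eb] [InnerProductSpace ℝ Eb] [FiniteDimensional ℝ Eb]
  {U : Type} [NormedAddCommGroup U] [InnerProductSpace ℝ U] [FiniteDimensional ℝ U]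

/-- the scaled family -/
noncomputable def f0 (s : Eb → ℝ) (φ : Eb × U → ℝ) (K d A : ℝ) (y : Bs Eb U × U) : ℝ :=
  Real.exp (A * s y.1.fst) * fp φ K d y.1.fst y.1.snd y.2

/-- the critical set -/
def SS (B : Set Eb) (φ : Eb × U → ℝ) (K d : ℝ) : Set (Bs Eb U × U) :=
  {y | y.1 ∈ QtOf U B ∧ Cr φ K d y.1.fst y.1.snd y.2}

variable {φ : Eb × U → ℝ} {B : Set Eb} {s : Eb → ℝ} {R K d c δ A : ℝ}

theorem sm_b : ContDiff ℝ ∞ fun y : Bs Eb U × U => y.1.fst :=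
  (WithLp.fstL 2 ℝ Eb U).contDiff.comp contDiff_fst

theorem sm_θ : ContDiff ℝ ∞ fun y : Bs Eb U × U => y.1.snd :=
  (WithLp.sndL 2 ℝ Eb U).contDiff.comp contDiff_fst

theorem sm_φ (hφ : ContDiff ℝ ∞ φ) : ContDiff ℝ ∞ fun y : Bs Eb U × U => φ (y.1.fst, y.2) :=
  hφ.comp (sm_b.prodMk contDiff_snd)

theorem sm_fp (hφ : ContDiff ℝ ∞ φ) (K d : ℝ) :
    ContDiff ℝ ∞ fun y : Bs Eb U × U => fp φ K d y.1.fst y.1.snd y.2 :=
  (((contDiff_const.mul ((sm_φ hφ).add contDiff_const)).exp).div_const K).sub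
    (sm_θ.inner ℝ contDiff_snd)

theorem sm_f0 (hs : ContDiff ℝ ∞ s) (hφ : ContDiff ℝ ∞ φ) (K d A : ℝ) :
    ContDiff ℝ ∞ (f0 s φ K d A) :=
  ((contDiff_const.mul (hs.comp sm_b)).exp).mul (sm_fp hφ K d)

theorem fderiv_f0 (hs : ContDiff ℝ ∞ s) (hφ : ContDiff ℝ ∞ φ) (hK : K ≠ 0) (d A : ℝ)
    (q u : Bs Eb U) (x w : U) : fderiv ℝ (f0 s φ K d A) (q, x) (u, w) =
      Real.exp (A * s q.fst) * (A * fderiv ℝ s q.fst u.fst * fp φ K d q.fst q.snd x +
        Real.exp (K * (φ (q.fst, x) + 4 * d)) * fderiv ℝ φ (q.fst, x) (u.fst, w) -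
        ⟪u.snd, x⟫ - ⟪q.snd, w⟫) := by
  refine Aux.fderiv_of_line (sm_f0 hs hφ K d A) ?_
  have e : (fun t : ℝ => f0 s φ K d A ((q, x) + t • (u, w))) = fun t : ℝ =>
      Real.exp (A * s (q.fst + t • u.fst)) *
        (Real.exp (K * (φ (q.fst + t • u.fst, x + t • w) + 4 * d)) / K -
          ⟪q.snd + t • u.snd, x + t • w⟫) := rfl
  rw [e]
  have lb := Aux.hasDerivAt_line q.fst u.fst 0
  have lθ := Aux.hasDerivAt_line q.snd u.snd 0
  have lx := Aux.hasDerivAt_line x w 0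
  have ds := (hs.differentiable (by simp) _).hasFDerivAt.comp_hasDerivAt (0 : ℝ) lb
  have dφ := (hφ.differentiable (by simp) _).hasFDerivAt.comp_hasDerivAt (0 : ℝ) (lb.prodMk lx)
  have tot := ((ds.const_mul A).exp).mul
    (((((dφ.add_const (4 * d)).const_mul K).exp).div_const K).sub (lθ.inner ℝ lx))
  refine tot.congr_deriv ?_
  simp only [Function.comp_def, Pi.sub_apply, zero_smul, add_zero, fp]
  field_simp
  ring

theorem dV_f0 (hs : ContDiff ℝ ∞ s) (hφ : ContDiff ℝ ∞ φ) (hK : K ≠ 0) (d A : ℝ)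
    (q : Bs Eb U) (x w : U) : dV (f0 s φ K d A) q x w =
      Real.exp (A * s q.fst) *
        (Real.exp (K * (φ (q.fst, x) + 4 * d)) * dV φ q.fst x w - ⟪q.snd, w⟫) := by
  rw [Aux.dV_apply (sm_f0 hs hφ K d A), fderiv_f0 hs hφ hK, Aux.dV_apply hφ]
  simp

theorem tan_b {q : Bs Eb U} (hq : q ∈ QtOf U B) {u : Eb} (hu : u ∈ Tan B q.fst) :
    WithLp.toLp 2 (u, (0 : U)) ∈ Tan (QtOf U B) q := by
  obtain ⟨γ, h1, h2, h3, h4⟩ := hu
  have h5 : HasDerivAt γ u 0 := h4 ▸ (h1.differentiable (by simp) 0).hasDerivAt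
  refine ⟨fun t => WithLp.toLp 2 (γ t, q.snd),
    WithLp.contDiff_toLp.comp (h1.prodMk contDiff_const), fun t => ⟨h2 t, hq.2⟩, ?_, ?_⟩
  · simp only [h3]
    rfl
  · exact ((WithLp.prodContinuousLinearEquiv 2 ℝ Eb U).symm.hasFDerivAt.comp_hasDerivAt (0 : ℝ)
      (h5.prodMk (hasDerivAt_const _ q.snd))).deriv

theorem tan_θ {q : Bs Eb U} (hq : q ∈ QtOf U B) {η : U} (hη : ⟪q.snd, η⟫ = 0) :
    WithLp.toLp 2 ((0 : Eb), η) ∈ Tan (QtOf U B) q := by
  have hpos : ∀ t : ℝ, 0 < 1 + t ^ 2 * ‖η‖ ^ 2 := fun t => by positivity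
  have s1 : ContDiff ℝ ∞ fun t : ℝ => (√(1 + t ^ 2 * ‖η‖ ^ 2))⁻¹ :=
    (ContDiff.sqrt (by fun_prop) fun t => (hpos t).ne').inv
      fun t => (Real.sqrt_pos.2 (hpos t)).ne'
  have s2 : ContDiff ℝ ∞ fun t : ℝ => (√(1 + t ^ 2 * ‖η‖ ^ 2))⁻¹ • (q.snd + t • η) :=
    s1.smul (contDiff_const.add (contDiff_id.smul contDiff_const))
  have d1 : HasDerivAt (fun t : ℝ => (√(1 + t ^ 2 * ‖η‖ ^ 2))⁻¹) 0 0 := by
    have a1 : HasDerivAt (fun t : ℝ => 1 + t ^ 2 * ‖η‖ ^ 2) 0 0 := by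
      simpa using (((hasDerivAt_id (0 : ℝ)).pow 2).mul_const (‖η‖ ^ 2)).const_add 1
    refine ((a1.sqrt (hpos 0).ne').inv (Real.sqrt_pos.2 (hpos 0)).ne').congr_deriv ?_
    simp
  have d2 : HasDerivAt (fun t : ℝ => (√(1 + t ^ 2 * ‖η‖ ^ 2))⁻¹ • (q.snd + t • η)) η 0 := by
    refine (d1.smul (Aux.hasDerivAt_line q.snd η 0)).congr_deriv ?_
    simp
  refine ⟨fun t => WithLp.toLp 2 (q.fst, (√(1 + t ^ 2 * ‖η‖ ^ 2))⁻¹ • (q.snd + t • η)),
    WithLp.contDiff_toLp.comp (contDiff_const.prodMk s2), fun t => ⟨hq.1, ?_⟩, ?_, ?_⟩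
  · change ‖(√(1 + t ^ 2 * ‖η‖ ^ 2))⁻¹ • (q.snd + t • η)‖ = 1
    have a1 : ‖q.snd + t • η‖ ^ 2 = 1 + t ^ 2 * ‖η‖ ^ 2 := by
      rw [norm_add_sq_real, real_inner_smul_right, hη, hq.2, norm_smul, mul_pow, Real.norm_eq_abs,
        sq_abs]
      ring
    rw [← a1, Real.sqrt_sq (norm_nonneg _), norm_smul, norm_inv, norm_norm]
    refine inv_mul_cancel₀ fun h0 => ?_
    rw [h0] at a1
    linarith [hpos t]
  · simp only [ne_eq, OfNat.ofNat_ne_zero, not_false_eq_true, zero_pow, zero_mul, add_zero,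
      Real.sqrt_one, inv_one, zero_smul, one_smul]
    rfl
  · exact ((WithLp.prodContinuousLinearEquiv 2 ℝ Eb U).symm.hasFDerivAt.comp_hasDerivAt (0 : ℝ)
      ((hasDerivAt_const _ q.fst).prodMk d2)).deriv

theorem par_of_orth {θ v : U} (hθ : ‖θ‖ = 1) (h : ∀ η, ⟪θ, η⟫ = 0 → ⟪η, v⟫ = 0) :
    v = ⟪θ, v⟫ • θ := by
  have h1 : ⟪θ, v - ⟪θ, v⟫ • θ⟫ = 0 := by
    rw [inner_sub_right, real_inner_smul_right, real_inner_self_eq_norm_sq, hθ]
    ring
  have h2 := h _ h1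
  have h3 : ⟪v - ⟪θ, v⟫ • θ, v - ⟪θ, v⟫ • θ⟫ = 0 := by
    rw [inner_sub_right, h2, real_inner_smul_right, real_inner_comm θ (v - ⟪θ, v⟫ • θ), h1]
    ring
  exact sub_eq_zero.1 (inner_self_eq_zero.1 h3)

theorem isCompact_Qt (hB : IsCompact B) : IsCompact (QtOf U B) := by
  have h : QtOf U B = WithLp.toLp 2 '' (B ×ˢ Metric.sphere (0 : U) 1) := by
    ext q
    constructor
    · intro hq
      exact ⟨(q.fst, q.snd), ⟨hq.1, by simpa using hq.2⟩, rfl⟩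
    · rintro ⟨p, hp, rfl⟩
      exact ⟨hp.1, by simpa using hp.2⟩
  rw [h]
  exact (hB.prod (isCompact_sphere _ _)).image (WithLp.prod_continuous_toLp _ _ _)

theorem isClosed_Cr (hφ : ContDiff ℝ ∞ φ) (K d : ℝ) :
    IsClosed {y : Bs Eb U × U | Cr φ K d y.1.fst y.1.snd y.2} := by
  refine (isClosed_le (sm_φ hφ).continuous continuous_const).inter ?_
  change IsClosed {y : Bs Eb U × U | ∀ w, Real.exp (K * (φ (y.1.fst, y.2) + 4 * d)) *
    dV φ y.1.fst y.2 w = ⟪y.1.snd, w⟫}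
  rw [ofPred_forall]
  have h1 : Continuous fun y : Bs Eb U × U => dV φ y.1.fst y.2 :=
    (cont_dV hφ).comp (sm_b.continuous.prodMk continuous_snd)
  exact isClosed_iInter fun w => isClosed_eq
    ((continuous_const.mul ((sm_φ hφ).continuous.add continuous_const)).rexp.mul
      (h1.clm_apply continuous_const)) (sm_θ.continuous.inner continuous_const)

theorem Core.isCompact_SS (h : Core B s φ R) (hd : 0 < d) : IsCompact (SS B φ K d) := by
  refine (((isCompact_Qt h.cpt).prod (isCompact_closedBall (0 : U) R)).inter_right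
    (isClosed_Cr h.sφ K d)).of_isClosed_subset
    (((isCompact_Qt h.cpt).isClosed.preimage continuous_fst).inter (isClosed_Cr h.sφ K d)) ?_
  intro y hy
  exact ⟨⟨hy.1, mem_closedBall_zero_iff.2 (h.lt (b := y.1.fst) (by linarith [hy.2.1])).le⟩, hy.2⟩

/-- regularity -/
theorem Good.reg (h : Core B s φ R) (g : Good B s φ K d c δ) (A : ℝ) {q : Bs Eb U} {x : U}
    (hy : (q, x) ∈ SS B φ K d) : Reg (QtOf U B) (f0 s φ K d A) q x := by
  intro v hv
  have hq : q ∈ QtOf U B := hy.1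
  have hμ := Real.exp_pos (A * s q.fst)
  have h1 : v = ⟪q.snd, v⟫ • q.snd := by
    refine par_of_orth hq.2 fun η hη => ?_
    have a1 := hv _ (tan_θ hq hη) 0
    simp only [fderiv_f0 h.ss h.sφ g.hK.ne', WithLp.toLp_fst, WithLp.toLp_snd, map_zero, mul_zero,
      zero_mul, Prod.mk_zero_zero, add_zero, inner_zero_right, sub_zero, zero_sub] at a1
    have a2 := (((hasDerivAt_const (0 : ℝ) η).inner ℝ (Aux.hasDerivAt_line x v 0)).neg).const_mul
      (Real.exp (A * s q.fst))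
    have a3 := a1.unique a2
    simp only [inner_zero_left, add_zero] at a3
    have a4 := (mul_eq_zero.1 a3.symm).resolve_left hμ.ne'
    exact neg_eq_zero.1 a4
  set l := ⟪q.snd, v⟫ with hl
  have h0 : (0 : Bs Eb U) ∈ Tan (QtOf U B) q := ⟨fun _ => q, contDiff_const, fun _ => hq, rfl, by simp⟩
  have a1 := hv 0 h0 q.snd
  simp only [← Aux.dV_apply (sm_f0 h.ss h.sφ K d A), dV_f0 h.ss h.sφ g.hK.ne'] at a1
  have a2 := line3 h.sφ K (4 * d) q.fst x q.snd ((0 : ℝ) * l)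
  have a3 := ((a2.comp (0 : ℝ) ((hasDerivAt_id (0 : ℝ)).mul_const l)).sub_const
    ⟪q.snd, q.snd⟫).const_mul (Real.exp (A * s q.fst))
  have e : ∀ t : ℝ, x + t • v = x + (t * l) • q.snd := fun t => by rw [mul_smul, ← h1]
  simp only [e] at a1
  have a4 := a1.unique a3
  simp only [zero_mul, zero_smul, add_zero, one_mul] at a4
  have a5 := g.cvx _ hq.1 _ x hq.2 hy.2
  have a6 : l = 0 := by
    have b1 := (mul_eq_zero.1 a4.symm).resolve_left hμ.ne'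
    exact (mul_eq_zero.1 b1).resolve_left (mul_pos (Real.exp_pos _) a5).ne'
  rw [h1, a6, zero_smul]

/-- the long chords -/
def ZZ (B : Set Eb) (φ : Eb × U → ℝ) (K d δ : ℝ) : Set ((Bs Eb U × U) × (Bs Eb U × U)) :=
  {z | (z.1 ∈ SS B φ K d ∧ z.2 ∈ SS B φ K d) ∧ z.2.1 = z.1.1 ∧
    z.2.2 = z.1.2 + ⟪z.1.1.snd, z.2.2 - z.1.2⟫ • z.1.1.snd ∧ δ ≤ |⟪z.1.1.snd, z.2.2 - z.1.2⟫|}

theorem Core.isCompact_ZZ (h : Core B s φ R) (hd : 0 < d) : IsCompact (ZZ B φ K d δ) := by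
  have cθ : Continuous fun z : (Bs Eb U × U) × (Bs Eb U × U) => z.1.1.snd :=
    sm_θ.continuous.comp continuous_fst
  have c1 : Continuous fun z : (Bs Eb U × U) × (Bs Eb U × U) => z.1.2 :=
    continuous_snd.comp continuous_fst
  have c2 : Continuous fun z : (Bs Eb U × U) × (Bs Eb U × U) => z.2.2 :=
    continuous_snd.comp continuous_snd
  have ct : Continuous fun z : (Bs Eb U × U) × (Bs Eb U × U) => ⟪z.1.1.snd, z.2.2 - z.1.2⟫ :=
    cθ.inner (c2.sub c1)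
  exact ((h.isCompact_SS hd).prod (h.isCompact_SS hd)).inter_right
    ((isClosed_eq (continuous_fst.comp continuous_snd) (continuous_fst.comp continuous_fst)).inter
      ((isClosed_eq c2 (c1.add (ct.smul cθ))).inter (isClosed_le continuous_const ct.abs)))

/-- the action term -/
noncomputable def ta (s : Eb → ℝ) (r : Eb → Eb) (φ : Eb × U → ℝ) (K d : ℝ) (y : Bs Eb U × U) :
    Eb →L[ℝ] ℝ :=
  fp φ K d y.1.fst y.1.snd y.2 • (fderiv ℝ s y.1.fst).comp (fderiv ℝ r y.1.fst)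

/-- the error term -/
noncomputable def te (r : Eb → Eb) (φ : Eb × U → ℝ) (K d : ℝ) (y : Bs Eb U × U) : Eb →L[ℝ] ℝ :=
  Real.exp (K * (φ (y.1.fst, y.2) + 4 * d)) •
    ((fderiv ℝ φ (y.1.fst, y.2)).comp (ContinuousLinearMap.inl ℝ Eb U)).comp (fderiv ℝ r y.1.fst)

theorem cont_ta (hs : ContDiff ℝ ∞ s) {r : Eb → Eb} (hr : ContDiff ℝ ∞ r) (hφ : ContDiff ℝ ∞ φ) :
    Continuous (ta s r φ K d) :=
  (sm_fp hφ K d).continuous.smul
    (((hs.continuous_fderiv (by simp)).comp sm_b.continuous).clm_comp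
      ((hr.continuous_fderiv (by simp)).comp sm_b.continuous))

theorem cont_te {r : Eb → Eb} (hr : ContDiff ℝ ∞ r) (hφ : ContDiff ℝ ∞ φ) :
    Continuous (te r φ K d) :=
  (continuous_const.mul ((sm_φ hφ).continuous.add continuous_const)).rexp.smul
    ((((hφ.continuous_fderiv (by simp)).comp
      (sm_b.continuous.prodMk continuous_snd)).clm_comp continuous_const).clm_comp
      ((hr.continuous_fderiv (by simp)).comp sm_b.continuous))

theorem Good.ta_ne (g : Good B s φ K d c δ) {O : Set Eb} {r : Eb → Eb} (hr : IsRet B O r)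
    {z : (Bs Eb U × U) × (Bs Eb U × U)} (hz : z ∈ ZZ B φ K d δ) :
    ta s r φ K d z.2 - ta s r φ K d z.1 ≠ 0 := by
  obtain ⟨⟨q, x⟩, q', x'⟩ := z
  obtain ⟨⟨h1, h2⟩, h3, h4, h5⟩ := hz
  obtain rfl : q' = q := h3
  have h7 : x' = x + ⟪q'.snd, x' - x⟫ • q'.snd := h4
  have h10 : δ ≤ |⟪q'.snd, x' - x⟫| := h5
  obtain ⟨t, ht⟩ : ∃ t, ⟪q'.snd, x' - x⟫ = t := ⟨_, rfl⟩
  rw [ht] at h7 h10
  subst h7
  obtain ⟨-, h8, h9⟩ := g.chord _ h1.1.1 _ x t h1.1.2 h1.2 h2.2 (by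
    intro h0
    rw [h0, abs_zero] at h10
    linarith [g.hδ])
  intro h0
  refine h9 ((crit_iff hr h1.1.1).2 (ContinuousLinearMap.ext fun w => ?_))
  have h11 : fp φ K d q'.fst q'.snd (x + t • q'.snd) * fderiv ℝ s q'.fst (fderiv ℝ r q'.fst w) -
      fp φ K d q'.fst q'.snd x * fderiv ℝ s q'.fst (fderiv ℝ r q'.fst w) = 0 :=
    congrArg (fun C => C w) h0
  rw [← sub_mul] at h11
  exact (mul_eq_zero.1 h11).resolve_left (sub_ne_zero.2 h8)

theorem eq_par (h : Core B s φ R) (hK : K ≠ 0) {q : Bs Eb U} {x x' : U} (hq : q ∈ QtOf U B)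
    (hu : ∀ u ∈ Tan (QtOf U B) q, fderiv ℝ (f0 s φ K d A) (q, x) (u, 0) =
      fderiv ℝ (f0 s φ K d A) (q, x') (u, 0)) : x' = x + ⟪q.snd, x' - x⟫ • q.snd := by
  have hμ := Real.exp_pos (A * s q.fst)
  have h1 : x' - x = ⟪q.snd, x' - x⟫ • q.snd := by
    refine par_of_orth hq.2 fun η hη => ?_
    have a1 := hu _ (tan_θ hq hη)
    simp only [fderiv_f0 h.ss h.sφ hK, WithLp.toLp_fst, WithLp.toLp_snd, map_zero, mul_zero,
      zero_mul, Prod.mk_zero_zero, add_zero, inner_zero_right, sub_zero, zero_sub] at a1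
    have a2 := neg_injective (mul_left_cancel₀ hμ.ne' a1)
    rw [inner_sub_right, a2, sub_self]
  rw [← h1, add_sub_cancel]

theorem eq_ta (h : Core B s φ R) (hK : K ≠ 0) {O : Set Eb} {r : Eb → Eb} (hr : IsRet B O r)
    {q : Bs Eb U} {x x' : U} (hq : q ∈ QtOf U B)
    (hu : ∀ u ∈ Tan (QtOf U B) q, fderiv ℝ (f0 s φ K d A) (q, x) (u, 0) =
      fderiv ℝ (f0 s φ K d A) (q, x') (u, 0)) :
    A • (ta s r φ K d (q, x') - ta s r φ K d (q, x)) =
      -(te r φ K d (q, x') - te r φ K d (q, x)) := by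
  have hμ := Real.exp_pos (A * s q.fst)
  ext w
  have a1 := hu _ (tan_b hq ((hr.mem_Tan hq.1).2 (hr.fderiv_mem hq.1 w)))
  simp only [fderiv_f0 h.ss h.sφ hK, WithLp.toLp_fst, WithLp.toLp_snd, inner_zero_left,
    inner_zero_right, sub_zero] at a1
  have a2 := mul_left_cancel₀ hμ.ne' a1
  simp only [ta, te, smul_apply, sub_apply, neg_apply, ContinuousLinearMap.comp_apply,
    ContinuousLinearMap.inl_apply, smul_eq_mul]
  linarith

theorem exists_scale {X W : Type} [TopologicalSpace X] [NormedAddCommGroup W] [NormedSpace ℝ W]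
    {Z : Set X} (hZ : IsCompact Z) {a e : X → W} (ca : Continuous a) (ce : Continuous e)
    (h : ∀ z ∈ Z, a z ≠ 0) : ∃ A : ℝ, ∀ z ∈ Z, A • a z ≠ -e z := by
  obtain ⟨m, hm, hm'⟩ := hZ.exists_forall_le' ca.norm.continuousOn (a := 0)
    (fun z hz => norm_pos_iff.2 (h z hz))
  obtain ⟨M, hM⟩ := hZ.exists_bound_of_continuousOn ce.continuousOn
  refine ⟨|M| / m + 1, fun z hz h5 => ?_⟩
  have h6 : ‖(|M| / m + 1) • a z‖ ≤ |M| := by
    rw [h5, norm_neg]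
    exact (hM _ hz).trans (le_abs_self M)
  have h8 : 0 < |M| / m + 1 := by positivity
  rw [norm_smul, Real.norm_eq_abs, abs_of_pos h8] at h6
  have h9 := mul_le_mul_of_nonneg_left (hm' z hz) h8.le
  have h10 : (|M| / m + 1) * m = |M| + m := by field_simp
  linarith

/-- the choice of the scaling -/
theorem Good.scale (h : Core B s φ R) (g : Good B s φ K d c δ) : ∃ A : ℝ, ∀ q x x',
    (q, x) ∈ SS B φ K d → (q, x') ∈ SS B φ K d →
    (∀ u ∈ Tan (QtOf U B) q, fderiv ℝ (f0 s φ K d A) (q, x) (u, 0) =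
      fderiv ℝ (f0 s φ K d A) (q, x') (u, 0)) → x = x' := by
  obtain ⟨O, r, hr⟩ := h.ret
  have ca : Continuous (ta s r φ K d) := cont_ta h.ss hr.smooth h.sφ
  have ce : Continuous (te r φ K d) := cont_te hr.smooth h.sφ
  obtain ⟨A, hA⟩ := exists_scale (h.isCompact_ZZ (K := K) (δ := δ) g.hd)
    (a := fun z => ta s r φ K d z.2 - ta s r φ K d z.1)
    (e := fun z => te r φ K d z.2 - te r φ K d z.1)
    ((ca.comp continuous_snd).sub (ca.comp continuous_fst))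
    ((ce.comp continuous_snd).sub (ce.comp continuous_fst)) (fun z hz => g.ta_ne hr hz)
  refine ⟨A, fun q x x' hx hx' hu => ?_⟩
  have hq : q ∈ QtOf U B := hx.1
  have h2 := eq_par h g.hK.ne' hq hu
  have h5 := eq_ta h g.hK.ne' hr hq hu
  by_contra hne
  have h3 : ⟪q.snd, x' - x⟫ ≠ 0 := fun h0 => hne (by rw [h2, h0, zero_smul, add_zero])
  have h6 : Cr φ K d q.fst q.snd (x + ⟪q.snd, x' - x⟫ • q.snd) := by
    rw [← h2]
    exact hx'.2
  have h4 := (g.chord q.fst hq.1 q.snd x _ hq.2 hx.2 h6 h3).1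
  exact hA ((q, x), (q, x')) ⟨⟨hx, hx'⟩, rfl, h2, h4⟩ h5

end Vale.Agent.P220Z.Cn.Fm
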