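import Vale.Agent.P220Z.Cn.FamB

/-!
# P220, construction: the barrier inside the domain
-/

open Set Filter Topology
open scoped ContDiff RealInnerProductSpace

set_option linter.unusedSectionVars false

namespace Vale.Agent.P220Z.Cn.Fm

open Vale.Agent.P220.R2.H57 Vale.Agent.P220Z.Per

/-- the profile of the barrier -/
noncomputable def kap (d t : ℝ) : ℝ :=
  (t + 3 * d) / (3 * d) * Real.smoothTransition (2 * (t + 3 * d) / d)

/-- the cutoff -/
noncomputable def chi (d t : ℝ) : ℝ := Real.smoothTransition ((-d - t) / d)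

section Prof

variable {d t : ℝ}

theorem sm_kap (d : ℝ) : ContDiff ℝ ∞ (kap d) :=
  ((contDiff_id.add contDiff_const).div_const _).mul (Real.smoothTransition.contDiff.comp
    ((contDiff_const.mul (contDiff_id.add contDiff_const)).div_const d))

theorem sm_chi (d : ℝ) : ContDiff ℝ ∞ (chi d) :=
  Real.smoothTransition.contDiff.comp ((contDiff_const.sub contDiff_id).div_const d)

theorem kap_zero (hd : 0 < d) (ht : t ≤ -(3 * d)) : kap d t = 0 := by
  rw [kap, Real.smoothTransition.zero_of_nonpos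
    (div_nonpos_of_nonpos_of_nonneg (by linarith) hd.le), mul_zero]

theorem kap_lin (hd : 0 < d) (ht : -(5 / 2 * d) ≤ t) : kap d t = 1 + t / (3 * d) := by
  rw [kap, Real.smoothTransition.one_of_one_le ((le_div_iff₀ hd).2 (by linarith)), mul_one]
  field_simp
  ring

theorem kap_nonneg (hd : 0 < d) (t : ℝ) : 0 ≤ kap d t := by
  rcases le_total t (-(3 * d)) with h | h
  · rw [kap_zero hd h]
  · exact mul_nonneg (div_nonneg (by linarith) (by linarith)) (Real.smoothTransition.nonneg _)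

theorem kap_mono (hd : 0 < d) : Monotone (kap d) := by
  intro t t' h
  rcases le_total t (-(3 * d)) with h1 | h1
  · rw [kap_zero hd h1]
    exact kap_nonneg hd t'
  · exact mul_le_mul (div_le_div_of_nonneg_right (by linarith) (by linarith))
      (Real.smoothTransition.monotone (div_le_div_of_nonneg_right (by linarith) hd.le))
      (Real.smoothTransition.nonneg _) (div_nonneg (by linarith) (by linarith))

theorem deriv_kap (hd : 0 < d) (ht : -(2 * d) ≤ t) : deriv (kap d) t = 1 / (3 * d) := by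
  have h1 : kap d =ᶠ[𝓝 t] fun u => 1 + u / (3 * d) := by
    filter_upwards [Ioi_mem_nhds (show -(5 / 2 * d) < t by linarith)] with u hu
    exact kap_lin hd (le_of_lt hu)
  rw [h1.deriv_eq]
  exact (((hasDerivAt_id t).div_const (3 * d)).const_add 1).deriv

theorem chi_one (hd : 0 < d) (ht : t ≤ -(2 * d)) : chi d t = 1 :=
  Real.smoothTransition.one_of_one_le ((le_div_iff₀ hd).2 (by linarith))

theorem chi_zero (hd : 0 < d) (ht : -d ≤ t) : chi d t = 0 :=
  Real.smoothTransition.zero_of_nonpos (div_nonpos_of_nonpos_of_nonneg (by linarith) hd.le)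

end Prof

variable {Eb : Type} [NormedAddCommGroup Eb] [InnerProductSpace ℝ Eb] [FiniteDimensional ℝ Eb]
  {U : Type} [NormedAddCommGroup U] [InnerProductSpace ℝ U] [FiniteDimensional ℝ U]

/-- the family cut off near the boundary -/
noncomputable def g1 (s : Eb → ℝ) (φ : Eb × U → ℝ) (K d A : ℝ) (y : Bs Eb U × U) : ℝ :=
  chi d (φ (y.1.fst, y.2)) * f0 s φ K d A y

/-- the family with the barrier -/
noncomputable def fa (s : Eb → ℝ) (φ : Eb × U → ℝ) (K d A a : ℝ) (y : Bs Eb U × U) : ℝ :=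
  g1 s φ K d A y + a * kap d (φ (y.1.fst, y.2))

variable {φ : Eb × U → ℝ} {B : Set Eb} {s : Eb → ℝ} {R K d c δ A a : ℝ}

theorem sm_g1 (hs : ContDiff ℝ ∞ s) (hφ : ContDiff ℝ ∞ φ) (K d A : ℝ) :
    ContDiff ℝ ∞ (g1 s φ K d A) :=
  ((sm_chi d).comp (sm_φ hφ)).mul (sm_f0 hs hφ K d A)

theorem sm_fa (hs : ContDiff ℝ ∞ s) (hφ : ContDiff ℝ ∞ φ) (K d A a : ℝ) :
    ContDiff ℝ ∞ (fa s φ K d A a) :=
  (sm_g1 hs hφ K d A).add (contDiff_const.mul ((sm_kap d).comp (sm_φ hφ)))

theorem dV_congr {E : Type} [NormedAddCommGroup E] [InnerProductSpace ℝ E] {F F' : E × U → ℝ}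
    {q : E} {x : U} (h : F =ᶠ[𝓝 (q, x)] F') : dV F q x = dV F' q x :=
  Filter.EventuallyEq.fderiv_eq
    ((continuous_const.prodMk continuous_id).continuousAt.eventually h)

theorem dV_fa (hs : ContDiff ℝ ∞ s) (hφ : ContDiff ℝ ∞ φ) (q : Bs Eb U) (x w : U) :
    dV (fa s φ K d A a) q x w =
      dV (g1 s φ K d A) q x w + a * (deriv (kap d) (φ (q.fst, x)) * dV φ q.fst x w) := by
  have h1 := line1 (sm_g1 hs hφ K d A) q x w 0
  have h2 := ((sm_kap d).differentiable (by simp) _).hasDerivAt.comp (0 : ℝ)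
    (line1 hφ q.fst x w 0)
  have h3 := (line1 (sm_fa hs hφ K d A a) q x w 0).unique (h1.add (h2.const_mul a))
  simpa using h3

theorem ev_lt (hφ : ContDiff ℝ ∞ φ) {y : Bs Eb U × U} {t : ℝ} (h : φ (y.1.fst, y.2) < t) :
    ∀ᶠ z in 𝓝 y, φ (z.1.fst, z.2) < t :=
  (sm_φ hφ).continuous.continuousAt.eventually_lt continuousAt_const h

theorem g1_eq (hφ : ContDiff ℝ ∞ φ) (hd : 0 < d) {y : Bs Eb U × U}
    (h : φ (y.1.fst, y.2) < -(2 * d)) : g1 s φ K d A =ᶠ[𝓝 y] f0 s φ K d A := by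
  filter_upwards [ev_lt hφ h] with z hz
  rw [g1, chi_one hd hz.le, one_mul]

theorem fa_eq (hφ : ContDiff ℝ ∞ φ) (hd : 0 < d) {y : Bs Eb U × U}
    (h : φ (y.1.fst, y.2) < -(3 * d)) : fa s φ K d A a =ᶠ[𝓝 y] f0 s φ K d A := by
  filter_upwards [ev_lt hφ h] with z hz
  rw [fa, g1, chi_one hd (by linarith), one_mul, kap_zero hd hz.le, mul_zero, add_zero]

theorem fa_col (hd : 0 < d) {y : Bs Eb U × U} (h : -d ≤ φ (y.1.fst, y.2)) :
    fa s φ K d A a y = a + a / (3 * d) * φ (y.1.fst, y.2) := by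
  rw [fa, g1, chi_zero hd h, zero_mul, zero_add, kap_lin hd (by linarith)]
  ring

theorem exists_dual (l : U →L[ℝ] ℝ) : ∃ N : U, ‖N‖ = ‖l‖ ∧ l N = ‖l‖ ^ 2 := by
  refine ⟨(InnerProductSpace.toDual ℝ U).symm l, by simp, ?_⟩
  rw [← InnerProductSpace.toDual_symm_apply (𝕜 := ℝ), real_inner_self_eq_norm_sq]
  simp

theorem Good.exp_big (g : Good B s φ K d c δ) {b : Eb} (hb : b ∈ B) {x : U}
    (h1 : -(3 * d) ≤ φ (b, x)) (h2 : φ (b, x) ≤ 0) :
    1 < Real.exp (K * (φ (b, x) + 4 * d)) * ‖dV φ b x‖ := by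
  have a1 := g.low b hb x (abs_le.2 ⟨by linarith [g.hd], by linarith [g.hd]⟩)
  have a2 : Real.exp (K * d) ≤ Real.exp (K * (φ (b, x) + 4 * d)) :=
    Real.exp_le_exp.2 (mul_le_mul_of_nonneg_left (by linarith) g.hK.le)
  exact g.big.trans_le (mul_le_mul a2 a1 g.hc.le (Real.exp_pos _).le)

theorem Good.strict (g : Good B s φ K d c δ) {y : Bs Eb U × U} (hy : y ∈ SS B φ K d) :
    φ (y.1.fst, y.2) < -(3 * d) := by
  by_contra h
  have h1 := g.exp_big hy.1.1 (not_lt.1 h) (by linarith [hy.2.1, g.hd])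
  rw [hy.2.norm hy.1.2] at h1
  exact lt_irrefl _ h1

theorem Core.bound (h : Core B s φ R) (hd : 0 < d) : ∃ M > 0, ∀ q ∈ QtOf U B, ∀ x,
    |g1 s φ K d A (q, x)| ≤ M ∧ (‖x‖ ≤ R → ‖dV (g1 s φ K d A) q x‖ ≤ M) := by
  have hK : IsCompact (QtOf U B ×ˢ Metric.closedBall (0 : U) R) :=
    (isCompact_Qt h.cpt).prod (isCompact_closedBall _ _)
  obtain ⟨M₁, h1⟩ := hK.exists_bound_of_continuousOn
    (sm_g1 h.ss h.sφ K d A).continuous.continuousOn
  obtain ⟨M₂, h2⟩ := hK.exists_bound_of_continuousOn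
    (cont_dV (sm_g1 h.ss h.sφ K d A)).continuousOn
  refine ⟨max (max M₁ M₂) 1, by positivity, fun q hq x => ⟨?_, fun hx => ?_⟩⟩
  · rcases le_total ‖x‖ R with hx | hx
    · exact (h1 (q, x) ⟨hq, mem_closedBall_zero_iff.2 hx⟩).trans
        ((le_max_left _ _).trans (le_max_left _ _))
    · have a1 : -d ≤ φ (q.fst, x) := by
        rw [h.far _ x hx]
        linarith [sq_nonneg ‖x‖]
      rw [g1, chi_zero hd a1, zero_mul, abs_zero]
      positivity
  · exact (h2 (q, x) ⟨hq, mem_closedBall_zero_iff.2 hx⟩).trans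
      ((le_max_right _ _).trans (le_max_left _ _))

/-- the critical points of the family with the barrier -/
theorem Good.crit (h : Core B s φ R) (g : Good B s φ K d c δ) {M : ℝ} (ha : 0 < a)
    (hM : ∀ q ∈ QtOf U B, ∀ x, ‖x‖ ≤ R → ‖dV (g1 s φ K d A) q x‖ ≤ M) (haM : 3 * d * M < a * c)
    {q : Bs Eb U} (hq : q ∈ QtOf U B) {x : U} (h0 : dV (fa s φ K d A a) q x = 0) :
    (q, x) ∈ SS B φ K d ∨ 5 * d < φ (q.fst, x) := by
  have hd := g.hd
  have hμ := Real.exp_pos (A * s q.fst)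
  rcases lt_or_ge (φ (q.fst, x)) (-(3 * d)) with h1 | h1
  · refine Or.inl ⟨hq, h1.le, fun w => ?_⟩
    rw [dV_congr (fa_eq (y := (q, x)) h.sφ hd h1)] at h0
    have a1 := dV_f0 h.ss h.sφ g.hK.ne' d A q x w
    rw [h0] at a1
    exact sub_eq_zero.1 ((mul_eq_zero.1 a1.symm).resolve_left hμ.ne')
  refine Or.inr (not_le.1 fun h2 => ?_)
  obtain ⟨N, hN, hN'⟩ := exists_dual (dV φ q.fst x)
  have a0 := dV_fa (K := K) (d := d) (A := A) (a := a) h.ss h.sφ q x N
  have a1 := g.low _ hq.1 x (abs_le.2 ⟨by linarith, h2⟩)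
  have a2 : 0 < ‖dV φ q.fst x‖ := g.hc.trans_le a1
  rw [h0, hN'] at a0
  rcases lt_or_ge (φ (q.fst, x)) (-(2 * d)) with h3 | h3
  · rw [dV_congr (g1_eq (y := (q, x)) h.sφ hd h3), dV_f0 h.ss h.sφ g.hK.ne', hN'] at a0
    have b1 := g.exp_big hq.1 h1 (by linarith)
    have b2 : ⟪q.snd, N⟫ ≤ ‖dV φ q.fst x‖ := by
      have := real_inner_le_norm q.snd N
      rwa [hq.2, one_mul, hN] at this
    have b3 : 0 ≤ deriv (kap d) (φ (q.fst, x)) := (kap_mono hd).deriv_nonneg
    have b4 : 0 < Real.exp (K * (φ (q.fst, x) + 4 * d)) * ‖dV φ q.fst x‖ ^ 2 - ⟪q.snd, N⟫ := by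
      nlinarith
    have b5 := mul_pos hμ b4
    have b6 : 0 ≤ a * (deriv (kap d) (φ (q.fst, x)) * ‖dV φ q.fst x‖ ^ 2) := by positivity
    simp only [zero_apply] at a0
    linarith
  · rw [deriv_kap hd h3] at a0
    have b1 := (dV (g1 s φ K d A) q x).le_opNorm N
    have b2 := hM q hq x (h.lt (b := q.fst) (by linarith [g.d1])).le
    rw [hN, Real.norm_eq_abs] at b1
    have b3 := (abs_le.1 (b1.trans (mul_le_mul_of_nonneg_right b2 a2.le))).1
    simp only [zero_apply] at a0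
    have b4 : a * (1 / (3 * d) * ‖dV φ q.fst x‖ ^ 2) ≤ M * ‖dV φ q.fst x‖ := by linarith
    have b5 : a * ‖dV φ q.fst x‖ ≤ 3 * d * M := by
      have b6 : a * (1 / (3 * d) * ‖dV φ q.fst x‖ ^ 2) =
          a * ‖dV φ q.fst x‖ / (3 * d) * ‖dV φ q.fst x‖ := by ring
      rw [b6] at b4
      have b7 := (div_le_iff₀ (by positivity)).1 (le_of_mul_le_mul_right b4 a2)
      linarith
    have b8 := mul_le_mul_of_nonneg_left a1 ha.le
    linarith

theorem Good.far (h : Core B s φ R) (g : Good B s φ K d c δ) (ha : 0 < a) (q : Bs Eb U) {x : U}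
    (hx : R + 1 ≤ ‖x‖) : a / (3 * d) ≤ ‖dV (fa s φ K d A a) q x‖ := by
  have hd := g.hd
  have h1 : fa s φ K d A a =ᶠ[𝓝 (q, x)] fun y => a + a / (3 * d) * ‖y.2‖ ^ 2 := by
    have a1 : ∀ᶠ y : Bs Eb U × U in 𝓝 (q, x), R < ‖y.2‖ :=
      continuousAt_const.eventually_lt continuous_snd.norm.continuousAt (by simp only; linarith)
    filter_upwards [a1] with y hy
    rw [fa_col hd, h.far _ _ hy.le]
    rw [h.far _ _ hy.le]
    linarith [sq_nonneg ‖y.2‖]
  rw [dV_congr h1]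
  have h2 : HasFDerivAt (fun y : U => a + a / (3 * d) * ‖y‖ ^ 2)
      ((a / (3 * d)) • (2 • innerSL ℝ x)) x :=
    (((hasStrictFDerivAt_norm_sq x).hasFDerivAt).const_mul _).const_add a
  have h3 : dV (fun y : Bs Eb U × U => a + a / (3 * d) * ‖y.2‖ ^ 2) q x x =
      a / (3 * d) * (2 * ‖x‖ ^ 2) := by
    rw [dV, h2.fderiv]
    simp
  have h4 := (dV (fun y : Bs Eb U × U => a + a / (3 * d) * ‖y.2‖ ^ 2) q x).le_opNorm x
  rw [h3] at h4
  have h5 : 0 < a / (3 * d) := by positivity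
  have h6 : 1 ≤ ‖x‖ := by linarith [h.one]
  have h7 := (le_abs_self _).trans h4
  refine le_of_mul_le_mul_right (le_trans ?_ h7) (by linarith)
  exact mul_le_mul_of_nonneg_left (by nlinarith) h5.le

/-- the family with the barrier -/
theorem Good.bar (h : Core B s φ R) (g : Good B s φ K d c δ) (A C : ℝ) : ∃ a > 0,
    (∀ q ∈ QtOf U B, ∀ x, dV (fa s φ K d A a) q x = 0 →
      |fa s φ K d A a (q, x)| ≤ a - C ∨ a + C ≤ |fa s φ K d A a (q, x)|) ∧
    Sig (QtOf U B) a (fa s φ K d A a) = SS B φ K d ∧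
    (∀ q ∈ QtOf U B, ∀ x, -a < fa s φ K d A a (q, x)) ∧
    (∀ q ∈ QtOf U B, ∀ x, φ (q.fst, x) < 0 → fa s φ K d A a (q, x) < a) ∧
    ∀ q x, 0 < φ (q.fst, x) → a < fa s φ K d A a (q, x) := by
  have hd := g.hd
  have hc := g.hc
  obtain ⟨M, hM0, hM⟩ := h.bound (K := K) (A := A) hd
  obtain ⟨a, a1, a2, a3⟩ : ∃ a, 3 * M < a ∧ M + |C| < a ∧ 3 * d * M < a * c := by
    have b1 : 0 < 3 * d * M / c := by positivity
    refine ⟨3 * M + |C| + 3 * d * M / c, by linarith [abs_nonneg C], by linarith, ?_⟩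
    exact (div_lt_iff₀ hc).1 (by linarith [abs_nonneg C])
  have ha : 0 < a := by linarith
  have hcr := fun q hq x => g.crit (A := A) h ha (fun q hq x => (hM q hq x).2) a3 (q := q) hq (x := x)
  have hS : ∀ y ∈ SS B φ K d, |fa s φ K d A a y| ≤ M := by
    intro y hy
    rw [fa, kap_zero hd hy.2.1, mul_zero, add_zero]
    exact (hM _ hy.1 _).1
  have hout : ∀ (q : Bs Eb U) x, 5 * d < φ (q.fst, x) → a + a ≤ fa s φ K d A a (q, x) := by
    intro q x hx
    rw [fa_col hd (by simp only; linarith)]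
    have b1 : a / (3 * d) * (3 * d) = a := by field_simp
    have b2 : 0 < a / (3 * d) := by positivity
    simp only
    nlinarith
  refine ⟨a, ha, fun q hq x h0 => ?_, ?_, fun q hq x => ?_, fun q hq x hx => ?_, fun q x hx => ?_⟩
  · rcases hcr q hq x h0 with b | b
    · exact Or.inl (by linarith [hS _ b, le_abs_self C])
    · exact Or.inr (by linarith [hout q x b, le_abs_self C, le_abs_self (fa s φ K d A a (q, x))])
  · ext ⟨q, x⟩
    constructor
    · rintro ⟨hq, h0, h1⟩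
      refine (hcr q hq x h0).resolve_right fun b => ?_
      linarith [hout q x b, le_abs_self (fa s φ K d A a (q, x))]
    · intro hy
      refine ⟨hy.1, ?_, by linarith [hS _ hy, abs_nonneg C]⟩
      rw [dV_congr (fa_eq (y := (q, x)) h.sφ hd (g.strict hy))]
      ext w
      rw [dV_f0 h.ss h.sφ g.hK.ne', hy.2.2 w, sub_self, mul_zero]
      rfl
  · have b1 := (abs_le.1 (hM q hq x).1).1
    have b2 := mul_nonneg ha.le (kap_nonneg hd (φ (q.fst, x)))
    rw [fa]
    simp only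
    linarith
  · rcases le_total (-d) (φ (q.fst, x)) with b | b
    · rw [fa_col hd b]
      have b2 : 0 < a / (3 * d) := by positivity
      simp only
      nlinarith
    · have b1 := (abs_le.1 (hM q hq x).1).2
      have b2 := kap_mono hd b
      rw [kap_lin hd (t := -d) (by linarith)] at b2
      have b3 : 1 + -d / (3 * d) = 2 / 3 := by
        field_simp
        ring
      rw [b3] at b2
      have b4 := mul_le_mul_of_nonneg_left b2 ha.le
      rw [fa]
      simp only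
      linarith
  · rw [fa_col hd (by simp only; linarith)]
    have b2 : 0 < a / (3 * d) := by positivity
    simp only
    nlinarith

end Vale.Agent.P220Z.Cn.Fm
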