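import Vale.Agent.P220Z.Cn.FamB

/-!
# P220, construction: the critical set is connected
-/

open Set Filter Topology
open scoped ContDiff RealInnerProductSpace

set_option linter.unusedSectionVars false

namespace Vale.Agent.P220Z.Cn.Fm

open Vale.Agent.P220.R2.H57 Vale.Agent.P220Z.Per

variable {Eb : Type} [NormedAddCommGroup Eb] [InnerProductSpace ℝ Eb] [FiniteDimensional ℝ Eb]
  {U : Type} [NormedAddCommGroup U] [InnerProductSpace ℝ U] [FiniteDimensional ℝ U]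

namespace Conn

/-- a compact set with open projection onto a connected base and one connected fibre -/
theorem preconn_of_fibre {X Y : Type} [TopologicalSpace X] [T2Space X] [TopologicalSpace Y]
    {S : Set (X × Y)} {B : Set X} (hS : IsCompact S) (hB : IsPreconnected B)
    (hSB : ∀ y ∈ S, y.1 ∈ B)
    (ho : ∀ y ∈ S, ∀ V ∈ 𝓝 y, ∀ᶠ b in 𝓝 y.1, b ∈ B → ∃ x, (b, x) ∈ S ∧ (b, x) ∈ V)
    {b₀ : X} (hb : b₀ ∈ B) (hf : IsPreconnected {x | (b₀, x) ∈ S}) : IsPreconnected S := by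
  have key : ∀ u v : Set (X × Y), IsClosed u → IsClosed v → S ⊆ u ∪ v → S ∩ (u ∩ v) = ∅ →
      (∀ x, (b₀, x) ∈ S → (b₀, x) ∈ u) → S ⊆ u := by
    intro u v hu hv h1 h2 h3 y hy
    by_contra hn
    have hP : IsClosed (Prod.fst '' (S ∩ v)) :=
      ((hS.inter_right hv).image continuous_fst).isClosed
    have hin : ∀ b ∈ Prod.fst '' (S ∩ v), b ∈ interior (Prod.fst '' (S ∩ v) ∪ Bᶜ) := by
      rintro _ ⟨z, hz, rfl⟩
      have hz' : z ∉ u := fun c => (h2.subset ⟨hz.1, c, hz.2⟩ : False)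
      rw [mem_interior_iff_mem_nhds]
      filter_upwards [ho z hz.1 uᶜ (hu.isOpen_compl.mem_nhds hz')] with b hb'
      by_cases c : b ∈ B
      · obtain ⟨x, a1, a2⟩ := hb' c
        exact Or.inl ⟨(b, x), ⟨a1, (h1 a1).resolve_left a2⟩, rfl⟩
      · exact Or.inr c
    obtain ⟨b, a1, a2, a3⟩ := hB _ _ isOpen_interior hP.isOpen_compl
      (fun b _ => (em _).imp_left (hin b))
      ⟨y.1, hSB y hy, hin _ ⟨y, ⟨hy, (h1 hy).resolve_left hn⟩, rfl⟩⟩
      ⟨b₀, hb, fun ⟨z, hz, e⟩ => by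
        obtain ⟨z1, z2⟩ := z
        obtain rfl : z1 = b₀ := e
        exact (h2.subset ⟨hz.1, h3 _ hz.1, hz.2⟩ : False)⟩
    exact (interior_subset a2).elim a3 fun c => c a1
  rw [isPreconnected_iff_subset_of_disjoint_closed] at hf ⊢
  intro u v hu hv h1 h2
  have hc : Continuous fun x : Y => (b₀, x) := continuous_const.prodMk continuous_id
  refine (hf _ _ (hu.preimage hc) (hv.preimage hc) (fun x hx => h1 hx)
    (eq_empty_of_forall_notMem fun x hx => (h2.subset hx : False))).imp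
    (key u v hu hv h1 h2) (key v u hv hu (by rwa [union_comm]) (by rwa [inter_comm v]))

theorem exists_T : ∃ T : (U →L[ℝ] ℝ) →L[ℝ] U, ∀ l w, ⟪T l, w⟫ = l w :=
  ⟨LinearMap.toContinuousLinearMap
    { toFun := fun l => (InnerProductSpace.toDual ℝ U).symm l
      map_add' := fun l l' => map_add _ _ _
      map_smul' := fun a l => by simp },
    fun _ _ => InnerProductSpace.toDual_symm_apply⟩

/-- a simple zero persists -/
theorem persist {X : Type} [TopologicalSpace X] {f : X × ℝ → ℝ} (hf : Continuous f) {b : X}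
    {a : ℝ} (ha : 0 < a) (hd : HasDerivAt (fun t => f (b, t)) a 0) (h0 : f (b, 0) = 1)
    {W : Set (X × ℝ)} (hW : W ∈ 𝓝 (b, (0 : ℝ))) :
    ∀ᶠ b' in 𝓝 b, ∃ t, f (b', t) = 1 ∧ (b', t) ∈ W := by
  obtain ⟨A, hA, I, hI, hAI⟩ := mem_nhds_prod_iff.1 hW
  obtain ⟨ε, hε, hI'⟩ := Metric.mem_nhds_iff.1 hI
  obtain ⟨t₁, a1, a2, a3⟩ : ∃ t : ℝ, 0 < t⁻¹ • (f (b, 0 + t) - f (b, 0)) ∧ t < 0 ∧ -ε < t :=
    ((hd.tendsto_slope_zero_left.eventually (lt_mem_nhds ha)).and (eventually_mem_nhdsWithin.and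
      (mem_nhdsWithin_of_mem_nhds (lt_mem_nhds (neg_lt_zero.2 hε))))).exists
  obtain ⟨t₂, b1, b2, b3⟩ : ∃ t : ℝ, 0 < t⁻¹ • (f (b, 0 + t) - f (b, 0)) ∧ 0 < t ∧ t < ε :=
    ((hd.tendsto_slope_zero_right.eventually (lt_mem_nhds ha)).and (eventually_mem_nhdsWithin.and
      (mem_nhdsWithin_of_mem_nhds (gt_mem_nhds hε)))).exists
  rw [zero_add, h0, smul_eq_mul] at a1 b1
  have c1 : f (b, t₁) < 1 := by
    by_contra c
    nlinarith [inv_lt_zero.2 a2, not_lt.1 c]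
  have c2 : 1 < f (b, t₂) := by
    by_contra c
    nlinarith [inv_pos.2 b2, not_lt.1 c]
  have hc : ∀ t, Continuous fun b' => f (b', t) := fun t =>
    hf.comp (continuous_id.prodMk continuous_const)
  filter_upwards [hA, (hc t₁).continuousAt.eventually (gt_mem_nhds c1),
    (hc t₂).continuousAt.eventually (lt_mem_nhds c2)] with b' d1 d2 d3
  obtain ⟨t, ht, e⟩ := intermediate_value_Icc (a2.trans b2).le
    (f := fun t => f (b', t)) (hf.comp (continuous_const.prodMk continuous_id)).continuousOn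
    (show (1 : ℝ) ∈ Icc _ _ from ⟨d2.le, d3.le⟩)
  refine ⟨t, e, hAI ⟨d1, hI' ?_⟩⟩
  rw [mem_ball_zero_iff, Real.norm_eq_abs, abs_lt]
  exact ⟨a3.trans_le ht.1, ht.2.trans_lt b3⟩

theorem exists_root {K d : ℝ} (hK : 0 < K) (hd : 0 < d) (h5 : 5 * d < 1) :
    ∃ r, 0 ≤ r ∧ r ^ 2 - 1 ≤ -(3 * d) ∧ Real.exp (K * (r ^ 2 - 1 + 4 * d)) * (2 * r) = 1 := by
  have h1 : √(1 - 3 * d) ^ 2 = 1 - 3 * d := Real.sq_sqrt (by linarith)
  have h2 : 1 / 2 ≤ √(1 - 3 * d) := Real.le_sqrt_of_sq_le (by linarith)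
  have h3 : 1 ≤ Real.exp (K * (√(1 - 3 * d) ^ 2 - 1 + 4 * d)) :=
    Real.one_le_exp (by rw [h1]; nlinarith)
  obtain ⟨r, hr, e⟩ := intermediate_value_Icc (Real.sqrt_nonneg (1 - 3 * d))
    (f := fun r : ℝ => Real.exp (K * (r ^ 2 - 1 + 4 * d)) * (2 * r)) (by fun_prop)
    (show (1 : ℝ) ∈ Icc _ _ from ⟨by simp, by nlinarith⟩)
  exact ⟨r, hr.1, by nlinarith [hr.1, hr.2], e⟩

theorem root_unique {K d r t : ℝ} (hK : 0 < K) (hr : 0 ≤ r) (ht : 0 ≤ t)
    (e1 : Real.exp (K * (r ^ 2 - 1 + 4 * d)) * (2 * r) = 1)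
    (e2 : Real.exp (K * (t ^ 2 - 1 + 4 * d)) * (2 * t) = 1) : t = r := by
  have key : ∀ a b : ℝ, 0 ≤ a → a < b → Real.exp (K * (a ^ 2 - 1 + 4 * d)) * (2 * a) <
      Real.exp (K * (b ^ 2 - 1 + 4 * d)) * (2 * b) := fun a b h1 h2 =>
    mul_lt_mul' (Real.exp_le_exp.2 (mul_le_mul_of_nonneg_left (by nlinarith) hK.le)) (by linarith)
      (by linarith) (Real.exp_pos _)
  rcases lt_trichotomy t r with c | c | c
  · linarith [key t r ht c]
  · exact c
  · linarith [key r t hr c]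

end Conn

variable {φ : Eb × U → ℝ} {B : Set Eb} {s : Eb → ℝ} {R K d c δ : ℝ}

theorem Good.conn (h : Core B s φ R) (g : Good B s φ K d c δ) (hB : IsConnected B) {k : ℕ}
    (hU : Module.finrank ℝ U = k + 2)
    (hb : ∃ b ∈ B, (∀ x, ‖x‖ ^ 2 - 1 ≤ φ (b, x)) ∧ ∀ x, ‖x‖ < 1 → φ (b, x) = ‖x‖ ^ 2 - 1) :
    IsConnected (SS B φ K d) := by
  obtain ⟨T, hT⟩ := Conn.exists_T (U := U)
  set n : Eb × U → U := fun y => Real.exp (K * (φ y + 4 * d)) • T (dV φ y.1 y.2) with hn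
  have n1 : ∀ y w, ⟪n y, w⟫ = Real.exp (K * (φ y + 4 * d)) * dV φ y.1 y.2 w := fun y w => by
    rw [hn, real_inner_smul_left, hT]
  have sn : ContDiff ℝ ∞ n := by
    have hD : ContDiff ℝ ∞ (fderiv ℝ φ) := h.sφ.fderiv_right (m := ∞) (by simp)
    simp only [hn, dV_eq h.sφ]
    exact (contDiff_const.mul (h.sφ.add contDiff_const)).exp.smul
      (T.contDiff.comp (hD.clm_comp contDiff_const))
  set S : Set (Eb × U) := {y | y.1 ∈ B ∧ φ y ≤ -(3 * d) ∧ ‖n y‖ ^ 2 = 1} with hS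
  have one : ∀ y ∈ S, ‖n y‖ = 1 := fun y hy =>
    (pow_eq_one_iff_of_nonneg (norm_nonneg _) two_ne_zero).1 hy.2.2
  have cr : ∀ y ∈ S, Cr φ K d y.1 (n y) y.2 := fun y hy => ⟨hy.2.1, fun w => (n1 y w).symm⟩
  have eS : SS B φ K d = (fun y => (WithLp.toLp 2 (y.1, n y), y.2)) '' S := by
    ext z
    constructor
    · rintro ⟨h1, h2⟩
      have e : n (z.1.fst, z.2) = z.1.snd := ext_inner_right ℝ fun w => (n1 _ w).trans (h2.2 w)
      refine ⟨(z.1.fst, z.2), ⟨h1.1, h2.1, by rw [e, h1.2, one_pow]⟩, ?_⟩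
      simp only [e]
      rfl
    · rintro ⟨y, hy, rfl⟩
      exact ⟨⟨hy.1, one y hy⟩, cr y hy⟩
  have cS : IsCompact S := by
    refine (h.cpt.prod (isCompact_closedBall (0 : U) R)).of_isClosed_subset
      ((h.cpt.isClosed.preimage continuous_fst).inter
        ((isClosed_le h.sφ.continuous continuous_const).inter
          (isClosed_eq (sn.continuous.norm.pow 2) continuous_const))) fun y hy => ?_
    exact ⟨hy.1, mem_closedBall_zero_iff.2 (h.lt (b := y.1) (by linarith [hy.2.1, g.hd])).le⟩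
  have lt : ∀ y ∈ S, φ y < -(3 * d) := fun y hy => by
    refine lt_of_le_of_ne hy.2.1 fun e => ?_
    have a1 := (cr y hy).norm (one y hy)
    have a2 := g.low y.1 hy.1 y.2 (by
      rw [show φ (y.1, y.2) = -(3 * d) from e, abs_neg, abs_of_pos (by linarith [g.hd])]
      linarith [g.hd])
    rw [show φ (y.1, y.2) = -(3 * d) from e, show K * (-(3 * d) + 4 * d) = K * d by ring] at a1
    have a3 := mul_le_mul_of_nonneg_left a2 (Real.exp_pos (K * d)).le
    linarith [g.big]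
  have ho : ∀ y ∈ S, ∀ V ∈ 𝓝 y, ∀ᶠ b in 𝓝 y.1, b ∈ B → ∃ x, (b, x) ∈ S ∧ (b, x) ∈ V := by
    intro y hy V hV
    have cp : Continuous fun z : Eb × ℝ => (z.1, y.2 + z.2 • n y) := by fun_prop
    have e0 : (y.1, y.2 + (0 : ℝ) • n y) = y := by simp
    have d1 := (sn.differentiable (by simp) _).hasFDerivAt.comp_hasDerivAt (0 : ℝ)
      (line0 y.1 y.2 (n y) 0)
    have d2 := d1.inner ℝ (hasDerivAt_const (0 : ℝ) (n y))
    simp only [Function.comp_def, n1] at d2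
    have d3 := d2.unique (line3 h.sφ K (4 * d) y.1 y.2 (n y) 0)
    have d4 := d1.norm_sq
    simp only [Function.comp_def, zero_smul, add_zero, map_zero, mul_zero, zero_add] at d3 d4
    have hpos := mul_pos (Real.exp_pos (K * (φ (y.1, y.2) + 4 * d)))
      (g.cvx _ hy.1 _ _ (one y hy) (cr y hy))
    filter_upwards [Conn.persist (f := fun z : Eb × ℝ => ‖n (z.1, y.2 + z.2 • n y)‖ ^ 2)
      ((sn.continuous.comp cp).norm.pow 2) (b := y.1) (by
        rw [real_inner_comm]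
        linarith) d4 (by simp only [e0]; exact hy.2.2)
      (W := (fun z : Eb × ℝ => (z.1, y.2 + z.2 • n y)) ⁻¹' (V ∩ {y | φ y < -(3 * d)}))
      (cp.continuousAt.preimage_mem_nhds (by
        simp only [e0]
        exact inter_mem hV ((isOpen_lt h.sφ.continuous continuous_const).mem_nhds (lt y hy))))]
      with b ⟨t, a1, a2, a3⟩ hb
    exact ⟨_, ⟨hb, le_of_lt a3, a1⟩, a2⟩
  obtain ⟨b, hb, b1, b2⟩ := hb
  obtain ⟨r, r0, r1, r2⟩ := Conn.exists_root g.hK g.hd g.d1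
  have nb : ∀ x, ‖x‖ < 1 → ‖n (b, x)‖ = Real.exp (K * (‖x‖ ^ 2 - 1 + 4 * d)) * (2 * ‖x‖) := by
    intro x hx
    have e : n (b, x) = Real.exp (K * (‖x‖ ^ 2 - 1 + 4 * d)) • (2 : ℝ) • x := by
      refine ext_inner_right ℝ fun w => ?_
      have e1 : (fun y : U => φ (b, y)) =ᶠ[𝓝 x] fun y => ‖y‖ ^ 2 - 1 := by
        filter_upwards [(isOpen_lt continuous_norm continuous_const).mem_nhds hx] with y hy
        exact b2 y hy
      rw [n1, b2 x hx, real_inner_smul_left, real_inner_smul_left, dV, e1.fderiv_eq,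
        ((hasStrictFDerivAt_norm_sq x).hasFDerivAt.sub_const 1).fderiv]
      simp
    rw [e, norm_smul, norm_smul, Real.norm_eq_abs, abs_of_pos (Real.exp_pos _), Real.norm_two]
  have fib : {x | (b, x) ∈ S} = Metric.sphere 0 r := by
    ext x
    rw [mem_sphere_zero_iff_norm]
    constructor
    · intro hx
      have a1 : ‖x‖ < 1 := by
        by_contra c
        nlinarith [b1 x, hx.2.1, g.hd, not_lt.1 c]
      exact Conn.root_unique g.hK r0 (norm_nonneg _) r2 ((nb x a1).symm.trans (one _ hx))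
    · intro hx
      have a1 : ‖x‖ < 1 := by
        by_contra c
        nlinarith [g.hd, not_lt.1 c]
      exact ⟨hb, by rw [b2 x a1, hx]; exact r1, by rw [nb x a1, hx, r2, one_pow]⟩
  have sph : IsConnected (Metric.sphere (0 : U) r) := isConnected_sphere (by
    rw [← Module.finrank_eq_rank, hU]
    exact_mod_cast (by omega : 1 < k + 2)) 0 r0
  rw [← fib] at sph
  rw [eS]
  obtain ⟨x, hx⟩ := sph.nonempty
  refine IsConnected.image (s := S) ⟨⟨(b, x), hx⟩, Conn.preconn_of_fibre cS hB.isPreconnected (fun y hy => hy.1)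
    ho hb sph.isPreconnected⟩ _ (Continuous.continuousOn ?_)
  exact ((WithLp.prod_continuous_toLp _ _ _).comp (continuous_fst.prodMk sn.continuous)).prodMk
    continuous_snd

end Vale.Agent.P220Z.Cn.Fm
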